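import Vale.Agent.P359.FastCert.Defs

/-!
The integer coverage checks of a window table: coupling amplitudes are given with 30 binary digits
and are verified by squaring.
-/

namespace Vale.Agent.P359.Fast

/-- `∑_{i < n} f i` in the integers. -/
noncomputable def sumZ (n : ℕ) (f : ℕ → ℤ) : ℤ := Nat.rec 0 (fun i r => Int.add (f i) r) n

/-- Amplitude tables and the factors of the coverage matrices. -/
structure CovTab where
  /-- factorials in 96-bit fields -/
  fct : ℕ
  /-- amplitudes for spins `(2, 1)`: for channel `k`, level `T` in fields of 768 bits -/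
  v21 : ℕ → ℕ
  /-- amplitudes for spins `(2, 2)` -/
  v22 : ℕ → ℕ
  /-- amplitudes for spins `(1, 1)` -/
  v11 : ℕ → ℕ
  /-- factor of the block `L`, 64-bit fields with offset `2 ^ 63` -/
  B : ℕ → ℕ

/-- The factorial table. -/
noncomputable def facT (V : CovTab) (n : ℕ) : ℕ := fld 96 V.fct n

/-- The factorial table starts at one and satisfies the recursion. -/
noncomputable def facCheck (V : CovTab) : Bool :=
  Nat.beq (facT V 0) 1 &&
    allTo 23 fun n => Nat.beq (facT V (Nat.add n 1)) (Nat.mul (Nat.add n 1) (facT V n))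

/-- Binomial coefficient from the table. -/
noncomputable def chT (V : CovTab) (n k : ℕ) : ℕ :=
  Nat.div (facT V n) (Nat.mul (facT V k) (facT V (Nat.sub n k)))

/-- Numerator of a limit amplitude. -/
noncomputable def numer (V : CovTab) (al be k T i : ℕ) : ℤ :=
  sumZ (Nat.add k 1) fun r =>
    cond (Nat.ble k (Nat.add i r) && Nat.ble r (Nat.sub T i))
      (Int.mul (cond (Nat.beq (Nat.mod r 2) 0) (1 : ℤ) (-1))
        (Int.ofNat (Nat.mul (Nat.mul (chT V k r) (chT V (Nat.sub T k) (Nat.sub (Nat.sub T i) r)))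
          (Nat.mul (Nat.pow al (Nat.sub (Nat.add i r) k)) (Nat.pow be (Nat.sub (Nat.sub T i) r))))))
      0

/-- Unnormalised squared amplitude. -/
noncomputable def xnum (V : CovTab) (al be k T i : ℕ) : ℕ :=
  Nat.mul (Nat.pow (Int.natAbs (numer V al be k T i)) 2)
    (Nat.mul (Nat.mul (facT V i) (facT V (Nat.sub T i)))
      (Nat.mul (Nat.pow al (Nat.sub T i)) (Nat.pow be i)))

/-- An amplitude of a table, times `2 ^ 30`. -/
noncomputable def amp (P : ℕ → ℕ) (k T i : ℕ) : ℤ :=
  Int.sub (Int.ofNat (fld 32 (fld 768 (P k) T) i)) 2147483648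

/-- An amplitude is right to within one unit. -/
noncomputable def ampOk (V : CovTab) (al be k T i Z : ℕ) (q : ℤ) : Bool :=
  force (Nat.mul (xnum V al be k T i) 1152921504606846976) fun X =>
  force (Int.natAbs q) fun a =>
    Nat.ble (Nat.mul (Nat.pow (Nat.sub a 1) 2) Z) X && Nat.ble X (Nat.mul (Nat.pow (Nat.add a 1) 2) Z) &&
      (Nat.beq a 0 ||
        (cond (decide (0 ≤ q)) (decide (0 ≤ numer V al be k T i)) (decide (numer V al be k T i ≤ 0))))

/-- A table of amplitudes up to level `N` is right. -/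
noncomputable def ampCheck (V : CovTab) (al be : ℕ) (P : ℕ → ℕ) (N : ℕ) : Bool :=
  allTo N fun T => allTo (Nat.add T 1) fun k =>
    force (sumTo (Nat.add T 1) fun i => xnum V al be k T i) fun Z =>
      Nat.blt 0 Z && allTo (Nat.add T 1) fun i => ampOk V al be k T i Z (amp P k T i)

/-- One-fermion table entry, an integer. -/
noncomputable def wInt (T : Tab) (L i i' : ℕ) : ℤ :=
  Int.sub (Int.ofNat (fld 32 T.W (Nat.add (Nat.mul (Nat.add (Nat.mul L (Nat.add T.S 1)) i)
    (Nat.add T.S 1)) i'))) 2147483648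

/-- Approximate coverage of channel `k`. -/
noncomputable def cov1S (T : Tab) (V : CovTab) (k : ℕ) : ℤ :=
  sumZ (Nat.add T.S T.J) fun L => cond (Nat.ble k L)
    (sumZ (Nat.add T.S 1) fun i => cond (Nat.ble i L && Nat.blt (Nat.sub L i) T.J)
      (sumZ (Nat.add T.S 1) fun i' => cond (Nat.ble i' L && Nat.blt (Nat.sub L i') T.J)
        (Int.mul (wInt T L i i') (Int.mul (amp V.v21 k L i) (amp V.v21 k L i'))) 0) 0) 0

/-- Sum of the absolute coefficients seen by channel `k`. -/
noncomputable def cov1E (T : Tab) (k : ℕ) : ℕ :=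
  sumTo (Nat.add T.S T.J) fun L => cond (Nat.ble k L)
    (sumTo (Nat.add T.S 1) fun i => cond (Nat.ble i L && Nat.blt (Nat.sub L i) T.J)
      (sumTo (Nat.add T.S 1) fun i' => cond (Nat.ble i' L && Nat.blt (Nat.sub L i') T.J)
        (Int.natAbs (wInt T L i i')) 0) 0) 0

/-- `3 / 2` times the limit eigenvalue, times `2 ^ 84`. -/
noncomputable def wTarget (k : ℕ) : ℤ :=
  Int.mul (cond (Nat.beq (Nat.mod k 2) 1) (1 : ℤ) (-1))
    (Int.ofNat (Nat.mul (Nat.mul 3 (Nat.sub (Nat.mul 3 k) 1)) (Nat.pow 2 (Nat.sub 83 k))))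

/-- Defect of channel `k`, times `2 ^ 84`. -/
noncomputable def defectS (T : Tab) (V : CovTab) (k : ℕ) : ℕ :=
  Int.toNat (Int.add (Int.sub (wTarget k) (cov1S T V k))
    (Int.ofNat (Nat.mul 3221225472 (cov1E T k))))

/-- The channel budget. -/
noncomputable def cov1Check (T : Tab) (V : CovTab) : Bool :=
  decide (1000 * (sumZ (Nat.add T.S 1)
        (fun i => (Int.ofNat (fld 32 T.C i) - 2147483648) * 1152921504606846976) +
      Int.ofNat (sumTo 30 fun k => cond (Nat.beq k 0 || Nat.beq k 1 || Nat.beq k 3) 0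
        (Nat.mul (Nat.add k 1) (defectS T V k)))) ≤
    999 * 19342813113834066795298816)

/-- Approximate pair amplitude, times `2 ^ 30`. -/
noncomputable def pamp (V : CovTab) (L m i a b : ℕ) : ℤ :=
  cond (Nat.ble m L && Nat.ble m (Nat.add a b) && Nat.ble L (Nat.add (Nat.add i a) b))
    (Int.ediv
      (Int.mul (amp V.v22 (Nat.sub L m) (Nat.sub (Nat.add (Nat.add i a) b) m) i)
        (amp V.v11 m (Nat.add a b) a)) 1073741824) 0

/-- Is `(i, a)` a window pair at level `U`? -/
noncomputable def inWin (T : Tab) (U i a : ℕ) : Bool :=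
  Nat.ble (Nat.add i a) U && Nat.blt a (Nat.sub (Nat.sub U i) a) &&
    Nat.blt (Nat.sub (Nat.sub U i) a) T.J

/-- The amplitudes of all odd channels of one window pair, packed with offset. -/
noncomputable def loPack (V : CovTab) (L n U i a : ℕ) : ℕ :=
  sumTo n fun j => Nat.shiftLeft
    (Int.toNat (Int.add (pamp V L (Nat.add (Nat.mul 2 j) 1) i a (Nat.sub (Nat.sub U i) a)) 4294967296))
    (Nat.mul 128 j)

/-- The amplitudes of all window pairs at one level. -/
noncomputable def winPack (T : Tab) (V : CovTab) (L n U : ℕ) : ℕ :=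
  sumTo (Nat.add T.S 1) fun i => sumTo T.J fun a => cond (inWin T U i a)
    (Nat.shiftLeft (loPack V L n U i a) (Nat.mul (Nat.mul 128 n) (Nat.add (Nat.mul i T.J) a))) 0

/-- The coverage matrix at level `U`, packed in one integer. -/
noncomputable def cov2U (T : Tab) (V : CovTab) (L n U : ℕ) : ℤ :=
  force (winPack T V L n U) fun P =>
  force (sumTo n fun j => Nat.shiftLeft 4294967296 (Nat.mul 128 j)) fun O =>
  sumZ (Nat.add T.S 1) fun i => sumZ T.J fun a => cond (inWin T U i a)
    (force (fld (Nat.mul 32 T.K) (T.G U) (gIdx T i a (Nat.sub (Nat.sub U i) a))) fun g =>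
      Int.mul
        (sumZ n fun j => Int.mul (pamp V L (Nat.add (Nat.mul 2 j) 1) i a (Nat.sub (Nat.sub U i) a))
          (Int.ofNat (Nat.shiftLeft 1 (Nat.mul (Nat.mul 128 n) j))))
        (sumZ (Nat.add T.S 1) fun i' => sumZ T.J fun a' => cond (inWin T U i' a')
          (Int.mul
            (Int.sub (Int.ofNat (fld 32 g (gIdx T i' a' (Nat.sub (Nat.sub U i') a')))) 2147483648)
            (Int.sub (Int.ofNat (fld (Nat.mul 128 n) P (Nat.add (Nat.mul i' T.J) a'))) (Int.ofNat O)))
          0)) 0

/-- Sum of the absolute coefficients seen by block `L`. -/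
noncomputable def cov2E (T : Tab) (L : ℕ) : ℕ :=
  sumTo (Nat.add T.S (Nat.mul 2 T.J)) fun U => cond (Nat.ble L U)
    (sumTo (Nat.add T.S 1) fun i => sumTo T.J fun a => cond (inWin T U i a)
      (force (fld (Nat.mul 32 T.K) (T.G U) (gIdx T i a (Nat.sub (Nat.sub U i) a))) fun g =>
        sumTo (Nat.add T.S 1) fun i' => sumTo T.J fun a' => cond (inWin T U i' a')
          (Int.natAbs
            (Int.sub (Int.ofNat (fld 32 g (gIdx T i' a' (Nat.sub (Nat.sub U i') a')))) 2147483648))
          0) 0) 0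

/-- The coverage matrix of block `L`, packed with offset `2 ^ 127`. -/
noncomputable def cov2Pack (T : Tab) (V : CovTab) (L n : ℕ) : ℕ :=
  Int.toNat (Int.add
    (sumZ (Nat.add T.S (Nat.mul 2 T.J)) fun U => cond (Nat.ble L U) (cov2U T V L n U) 0)
    (Int.ofNat (sumTo (Nat.mul n n) fun q =>
      Nat.shiftLeft 170141183460469231731687303715884105728 (Nat.mul 128 q))))

/-- Entry `(j, l)` of the matrix whose positivity certifies block `L`. -/
noncomputable def cov2Ent (n P E j l : ℕ) : ℤ :=
  Int.sub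
    (Int.sub (cond (Nat.beq j 0 && Nat.beq l 0) (19342813113834066795298816 : ℤ) 0)
      (Int.sub (Int.ofNat (fld 128 P (Nat.add (Nat.mul n j) l)))
        170141183460469231731687303715884105728))
    (cond (Nat.beq j l) (Int.ofNat (Nat.mul (Nat.mul n 9663676416) E)) 0)

/-- Entry `(r, j)` of the factor of a block. -/
noncomputable def cov2B (F n r j : ℕ) : ℤ :=
  Int.sub (Int.ofNat (fld 64 F (Nat.add (Nat.mul n r) j))) 9223372036854775808

/-- The dominance of block `L`. -/
noncomputable def cov2Check (T : Tab) (V : CovTab) (L : ℕ) : Bool :=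
  force (Nat.div (Nat.add L 1) 2) fun n =>
  force (cov2Pack T V L n) fun P =>
  force (cov2E T L) fun E =>
  force (V.B L) fun F =>
  allTo n fun j =>
    decide (Int.ofNat (sumTo n fun l =>
        Nat.add
          (Int.natAbs (cov2Ent n P E j l - sumZ n fun r => cov2B F n r j * cov2B F n r l))
          (Int.natAbs (cov2Ent n P E l j - sumZ n fun r => cov2B F n r l * cov2B F n r j))) ≤
      4 * (cov2Ent n P E j j - sumZ n fun r => cov2B F n r j * cov2B F n r j))

end Vale.Agent.P359.Fast
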