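import Vale.Agent.P359.FastCert.Bridge
import Vale.Agent.P359.FastCert.CovDefs
import Vale.Agent.P359.CouplingLimDef

/-!
The checked amplitude tables approximate the limit amplitudes.
-/

namespace Vale.Agent.P359.Fast

open Finset

theorem sumZ_eq (n : ℕ) (f : ℕ → ℤ) : sumZ n f = ∑ i ∈ range n, f i := by
  induction n with
  | zero => rfl
  | succ n ih =>
    rw [Finset.sum_range_succ, ← ih]
    show Int.add (f n) (sumZ n f) = _
    exact add_comm _ _

theorem facT_eq {V : CovTab} (h : facCheck V = true) : ∀ n, n ≤ 23 → facT V n = n.factorial := by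
  rw [facCheck, Bool.and_eq_true, Nat.beq_eq] at h
  intro n
  induction n with
  | zero => intro _; rw [h.1, Nat.factorial_zero]
  | succ n ih =>
    intro hn
    have h' := allTo_eq h.2 n (by omega)
    rw [Nat.beq_eq] at h'
    show facT V (Nat.add n 1) = _
    rw [h', ih (by omega), Nat.factorial_succ]
    rfl

theorem chT_eq {V : CovTab} (h : facCheck V = true) {n k : ℕ} (hk : k ≤ n) (hn : n ≤ 23) :
    chT V n k = n.choose k := by
  show facT V n / (facT V k * facT V (n - k)) = _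
  rw [facT_eq h n hn, facT_eq h k (by omega), facT_eq h (n - k) (by omega),
    Nat.choose_eq_factorial_div_factorial hk]

theorem numer_eq {V : CovTab} (h : facCheck V = true) (al be : ℕ) {k T i : ℕ} (hk : k ≤ T)
    (hT : T ≤ 23) (hi : i ≤ T) :
    (numer V al be k T i : ℝ) = ((T - k).factorial : ℝ) *
      ∑ r ∈ range (k + 1), if k ≤ i + r ∧ r ≤ T - i then
        (-1 : ℝ) ^ r * (k.choose r) * ((al : ℝ) ^ (i + r - k) / (i + r - k).factorial) *
          ((be : ℝ) ^ (T - i - r) / (T - i - r).factorial) else 0 := by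
  rw [numer, sumZ_eq, Int.cast_sum, Finset.mul_sum]
  refine Finset.sum_congr rfl fun r hr => ?_
  replace hr : r < k + 1 := mem_range.1 hr
  by_cases hc : k ≤ i + r ∧ r ≤ T - i
  · have e : (Nat.ble k (Nat.add i r) && Nat.ble r (Nat.sub T i)) = true := by
      rw [Bool.and_eq_true, Nat.ble_eq, Nat.ble_eq]; exact hc
    rw [e, if_pos hc]
    simp only [cond_true]
    have h1 : chT V k r = k.choose r := chT_eq h (by omega) (by omega)
    have h2 : chT V (Nat.sub T k) (Nat.sub (Nat.sub T i) r) = (T - k).choose (T - i - r) :=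
      chT_eq h (by show T - i - r ≤ T - k; omega) (by show T - k ≤ 23; omega)
    have h3 : ((T - k).choose (T - i - r) : ℝ) =
        ((T - k).factorial : ℝ) / ((i + r - k).factorial * (T - i - r).factorial) := by
      rw [Nat.cast_choose ℝ (show T - i - r ≤ T - k by omega),
        show T - k - (T - i - r) = i + r - k by omega, mul_comm ((T - i - r).factorial : ℝ)]
    have hs : ((cond (Nat.beq (Nat.mod r 2) 0) (1 : ℤ) (-1) : ℤ) : ℝ) = (-1 : ℝ) ^ r := by
      by_cases hr2 : r % 2 = 0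
      · rw [show Nat.beq (Nat.mod r 2) 0 = true from by rw [Nat.beq_eq]; exact hr2]
        rw [Even.neg_one_pow (Nat.even_iff.2 hr2)]
        simp
      · rw [show Nat.beq (Nat.mod r 2) 0 = false from by
          rw [← Bool.not_eq_true, Nat.beq_eq]; exact hr2]
        rw [Odd.neg_one_pow (Nat.odd_iff.2 (show r % 2 = 1 by omega))]
        simp
    rw [h1, h2]
    show (((cond (Nat.beq (Nat.mod r 2) 0) (1 : ℤ) (-1)) *
      ((k.choose r * (T - k).choose (T - i - r) * (al ^ (i + r - k) * be ^ (T - i - r)) : ℕ) : ℤ) : ℤ) : ℝ) = _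
    push_cast
    rw [hs, h3]
    field_simp
  · have e : (Nat.ble k (Nat.add i r) && Nat.ble r (Nat.sub T i)) = false := by
      rw [← Bool.not_eq_true, Bool.and_eq_true, Nat.ble_eq, Nat.ble_eq]; exact hc
    rw [e, if_neg hc]
    simp

theorem coupLim_sq {V : CovTab} (h : facCheck V = true) {al be : ℕ} (hal : 0 < al) (hbe : 0 < be)
    {k T i : ℕ} (hk : k ≤ T) (hT : T ≤ 23) (hi : i ≤ T) :
    coupLim al be k T i (T - i) ^ 2 =
        (xnum V al be k T i : ℝ) / ((∑ j ∈ range (T + 1), xnum V al be k T j : ℕ) : ℝ) ∧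
      (0 ≤ numer V al be k T i → 0 ≤ coupLim al be k T i (T - i)) ∧
      (numer V al be k T i ≤ 0 → coupLim al be k T i (T - i) ≤ 0) := by
  set c : ℝ := ((T - k).factorial : ℝ) ^ 2 * ((al : ℝ) * be) ^ T with hc
  have hal' : (0 : ℝ) < al := Nat.cast_pos.2 hal
  have hbe' : (0 : ℝ) < be := Nat.cast_pos.2 hbe
  have hfac : (0 : ℝ) < (T - k).factorial := Nat.cast_pos.2 (Nat.factorial_pos _)
  have hc0 : 0 < c := by positivity
  have hraw : ∀ j ≤ T, coupLimRaw al be k T j (T - j) =
      (numer V al be k T j : ℝ) / ((T - k).factorial : ℝ) /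
        Real.sqrt (((al : ℝ) ^ j / j.factorial) * ((be : ℝ) ^ (T - j) / (T - j).factorial)) := by
    intro j hj
    rw [coupLimRaw, if_pos (by omega), numer_eq h al be hk hT hj, mul_div_cancel_left₀ _ hfac.ne']
  have hsq : ∀ j ≤ T, coupLimRaw al be k T j (T - j) ^ 2 = (xnum V al be k T j : ℝ) / c := by
    intro j hj
    rw [hraw j hj, div_pow, div_pow, Real.sq_sqrt (by positivity)]
    have e : (xnum V al be k T j : ℝ) = (numer V al be k T j : ℝ) ^ 2 *
        (((j.factorial : ℝ) * (T - j).factorial) * ((al : ℝ) ^ (T - j) * (be : ℝ) ^ j)) := by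
      show (((numer V al be k T j).natAbs ^ 2 *
        ((facT V j * facT V (T - j)) * (al ^ (T - j) * be ^ j)) : ℕ) : ℝ) = _
      rw [facT_eq h j (by omega), facT_eq h (T - j) (by omega)]
      push_cast
      rw [Nat.cast_natAbs, Int.cast_abs, sq_abs]
    rw [e, hc, mul_pow, show (al : ℝ) ^ T = (al : ℝ) ^ j * (al : ℝ) ^ (T - j) by
      rw [← pow_add]; congr 1; omega, show (be : ℝ) ^ T = (be : ℝ) ^ j * (be : ℝ) ^ (T - j) by
      rw [← pow_add]; congr 1; omega]
    field_simp
  have hN : ∑ j ∈ range (T + 1), coupLimRaw al be k T j (T - j) ^ 2 =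
      ((∑ j ∈ range (T + 1), xnum V al be k T j : ℕ) : ℝ) / c := by
    rw [Nat.cast_sum, Finset.sum_div]
    exact Finset.sum_congr rfl fun j hj => hsq j (Nat.lt_succ_iff.1 (mem_range.1 hj))
  refine ⟨?_, fun hn => ?_, fun hn => ?_⟩
  · rw [coupLim, div_pow, Real.sq_sqrt (Finset.sum_nonneg fun j _ => sq_nonneg _), hsq i hi, hN,
      div_div_div_cancel_right₀ hc0.ne']
  · rw [coupLim, hraw i hi]
    exact div_nonneg (div_nonneg (div_nonneg (by exact_mod_cast hn) hfac.le) (Real.sqrt_nonneg _))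
      (Real.sqrt_nonneg _)
  · rw [coupLim, hraw i hi]
    exact div_nonpos_of_nonpos_of_nonneg (div_nonpos_of_nonpos_of_nonneg
      (div_nonpos_of_nonpos_of_nonneg (by exact_mod_cast hn) hfac.le) (Real.sqrt_nonneg _))
      (Real.sqrt_nonneg _)

/-- A checked table is within one unit of `2 ^ 30` times the amplitude. -/
theorem amp_near {V : CovTab} (h : facCheck V = true) {al be : ℕ} (hal : 0 < al) (hbe : 0 < be)
    {P : ℕ → ℕ} {N : ℕ} (hN : N ≤ 24) (hP : ampCheck V al be P N = true) {k T i : ℕ} (hT : T < N)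
    (hk : k ≤ T) (hi : i ≤ T) :
    |coupLim al be k T i (T - i) * 1073741824 - (amp P k T i : ℝ)| ≤ 1 ∧
      |coupLim al be k T i (T - i)| ≤ 1 ∧ |(amp P k T i : ℝ)| ≤ 1073741825 := by
  have h1 := allTo_eq (allTo_eq hP T hT) k (Nat.lt_succ_iff.2 hk)
  rw [force_eq, sumTo_eq, Bool.and_eq_true, Nat.blt_eq] at h1
  set Z := ∑ j ∈ range (Nat.add T 1), xnum V al be k T j with hZ
  obtain ⟨hZ0, h2⟩ := h1
  have h3 := allTo_eq h2 i (Nat.lt_succ_iff.2 hi)
  simp only [ampOk, force_eq] at h3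
  set q := amp P k T i
  set v := coupLim al be k T i (T - i)
  obtain ⟨hsq, hp, hn⟩ := coupLim_sq h hal hbe hk (by omega) hi
  rw [Bool.and_eq_true, Bool.and_eq_true, Nat.ble_eq, Nat.ble_eq] at h3
  obtain ⟨⟨hlo, hhi⟩, hsgn⟩ := h3
  have hZr : (0 : ℝ) < Z := by exact_mod_cast hZ0
  have hv2 : (v * 1073741824) ^ 2 * Z = (xnum V al be k T i : ℝ) * 1152921504606846976 := by
    rw [mul_pow, hsq, show (∑ j ∈ range (T + 1), xnum V al be k T j) = Z from rfl]
    field_simp
    ring
  have hv1 : |v| ≤ 1 := by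
    rw [← sq_le_one_iff_abs_le_one, hsq, show (∑ j ∈ range (T + 1), xnum V al be k T j) = Z from rfl,
      div_le_one hZr]
    exact_mod_cast Finset.single_le_sum (f := fun j => xnum V al be k T j)
      (fun _ _ => Nat.zero_le _) (mem_range.2 (show i < Nat.add T 1 from Nat.lt_succ_iff.2 hi))
  set a := q.natAbs with ha
  have hlo' : (((a - 1 : ℕ) : ℝ)) ^ 2 * Z ≤ (v * 1073741824) ^ 2 * Z := by
    rw [hv2]; exact_mod_cast hlo
  have hhi' : (v * 1073741824) ^ 2 * Z ≤ ((a : ℝ) + 1) ^ 2 * Z := by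
    rw [hv2]; exact_mod_cast hhi
  have hA1 : ((a - 1 : ℕ) : ℝ) ≤ |v * 1073741824| := by
    have h' := le_of_mul_le_mul_right hlo' hZr
    rw [← sq_abs (v * _)] at h'
    exact (sq_le_sq₀ (Nat.cast_nonneg _) (abs_nonneg _)).1 h'
  have hA2 : |v * 1073741824| ≤ (a : ℝ) + 1 := by
    have h' := le_of_mul_le_mul_right hhi' hZr
    rw [← sq_abs (v * _)] at h'
    exact (sq_le_sq₀ (abs_nonneg _) (by positivity)).1 h'
  have hqa : (a : ℝ) = |(q : ℝ)| := by rw [ha, Nat.cast_natAbs, Int.cast_abs]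
  have hAle : (a : ℝ) - 1 ≤ ((a - 1 : ℕ) : ℝ) := by
    rcases Nat.eq_zero_or_pos a with h0 | h0
    · rw [h0]; norm_num
    · rw [Nat.cast_sub h0]; norm_num
  have hw : |v * 1073741824| ≤ 1073741824 := by
    rw [abs_mul]
    calc |v| * |(1073741824 : ℝ)| ≤ 1 * |(1073741824 : ℝ)| := mul_le_mul_of_nonneg_right hv1 (abs_nonneg _)
      _ = _ := by norm_num
  refine ⟨?_, hv1, by rw [← hqa]; linarith⟩
  by_cases ha0 : a = 0
  · have hq0 : (q : ℝ) = 0 := by
      have : q = 0 := Int.natAbs_eq_zero.1 ha0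
      rw [this]; norm_num
    rw [ha0] at hA2
    rw [hq0, sub_zero]
    simpa using hA2
  · rw [Bool.or_eq_true, Nat.beq_eq] at hsgn
    have hsgn' := hsgn.resolve_left ha0
    rcases le_or_gt 0 q with hq | hq
    · rw [decide_eq_true hq] at hsgn'
      simp only [cond_true, decide_eq_true_eq] at hsgn'
      have hv : 0 ≤ v * 1073741824 := mul_nonneg (hp hsgn') (by norm_num)
      have hq' : |(q : ℝ)| = q := abs_of_nonneg (by exact_mod_cast hq)
      rw [abs_of_nonneg hv] at hA1 hA2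
      rw [abs_le]
      constructor <;> linarith
    · rw [decide_eq_false (not_le.2 hq)] at hsgn'
      simp only [cond_false, decide_eq_true_eq] at hsgn'
      have hv : v * 1073741824 ≤ 0 := mul_nonpos_of_nonpos_of_nonneg (hn hsgn') (by norm_num)
      have hq' : |(q : ℝ)| = -q := abs_of_neg (by exact_mod_cast hq)
      rw [abs_of_nonpos hv] at hA1 hA2
      rw [abs_le]
      constructor <;> linarith

end Vale.Agent.P359.Fast
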