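import Vale.Agent.P359.FastCert.Bridge

/-!
Positivity of the window form from the checks of all blocks.
-/

namespace Vale.Agent.P359.Fast

open Finset

/-- Membership and dominance of the blocks `lo, …, lo + n - 1`. -/
noncomputable def chunkCheck (T : Tab) (bs : ℕ → Blk) (lo n : ℕ) : Bool :=
  allTo n fun o => force (Nat.add lo o) fun k => memberCheck T k (bs k) && blockCheck T (bs k)

theorem chunkCheck_spec {T : Tab} {bs : ℕ → Blk} {lo n : ℕ} (h : chunkCheck T bs lo n = true)
    {k : ℕ} (h1 : lo ≤ k) (h2 : k < lo + n) :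
    memberCheck T k (bs k) = true ∧ blockCheck T (bs k) = true := by
  have h' := allTo_eq h (k - lo) (by omega)
  rw [force_eq, show Nat.add lo (k - lo) = k by show lo + (k - lo) = k; omega, Bool.and_eq_true] at h'
  exact h'

/-- The window form of checked tables is nonnegative. -/
theorem winForm_nonneg {T : Tab} (hJ : T.J ≤ 10) (hp : parCheck T = true) {bs : ℕ → Blk} {NB : ℕ}
    (hblk : ∀ k < NB, memberCheck T k (bs k) = true ∧ blockCheck T (bs k) = true)
    (hcover : coverCheck T bs NB 0 (Nat.shiftLeft (Nat.add T.S 1) T.J) = true)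
    (u : ℕ → Finset ℕ → ℝ) : 0 ≤ winForm T.S T.J (cR T) (wR T) (gR T) u := by
  rw [winForm_rows hp]
  refine div_nonneg ?_ (by norm_num [scale])
  set F : ℕ → ℝ := fun x => codeVec T.J u x * rowVal T x (codeVec T.J u)
  set N := (T.S + 1) * 2 ^ T.J
  have hN : Nat.shiftLeft (Nat.add T.S 1) T.J = N := Nat.shiftLeft_eq _ _
  have hflat : ∑ i ∈ range (T.S + 1), ∑ m ∈ range (2 ^ T.J), F (Nat.add (Nat.shiftLeft i T.J) m) =
      ∑ x ∈ range N, F x := by
    simp only [N]
    generalize T.S + 1 = K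
    induction K with
    | zero => simp
    | succ K ih =>
      rw [Finset.sum_range_succ, ih, add_mul, one_mul, Finset.sum_range_add]
      congr 1
      refine Finset.sum_congr rfl fun m _ => ?_
      congr 1
      show K <<< T.J + m = K * 2 ^ T.J + m
      rw [Nat.shiftLeft_eq]
  show 0 ≤ ∑ i ∈ range (T.S + 1), ∑ m ∈ range (2 ^ T.J), F (Nat.add (Nat.shiftLeft i T.J) m)
  rw [hflat]
  have hmem : ∀ k < NB, (bs k).D ≤ 255 ∧ ∀ j < (bs k).D, fld 16 (bs k).st j < N ∧
      fld 10 T.blk (fld 16 (bs k).st j) = k ∧ posOf T (bs k) (fld 16 (bs k).st j) = j := by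
    intro k hk
    have h := (hblk k hk).1
    simp only [memberCheck, Bool.and_eq_true, Nat.ble_eq] at h
    refine ⟨h.1, fun j hj => ?_⟩
    have h' := allTo_eq h.2 j hj
    rw [force_eq, Bool.and_eq_true, Bool.and_eq_true, Nat.blt_eq, Nat.beq_eq, Nat.beq_eq, hN] at h'
    exact ⟨h'.1.1, h'.1.2, h'.2⟩
  have hcov : ∀ x < N, fld 10 T.blk x < NB ∧
      posOf T (bs (fld 10 T.blk x)) x < (bs (fld 10 T.blk x)).D ∧
      fld 16 (bs (fld 10 T.blk x)).st (posOf T (bs (fld 10 T.blk x)) x) = x := by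
    intro x hx
    have h' := allTo_eq hcover x (by rw [hN]; exact hx)
    simp only [force_eq] at h'
    rw [show Nat.add 0 x = x from Nat.zero_add x, Bool.and_eq_true, Bool.and_eq_true, Nat.blt_eq,
      Nat.blt_eq, Nat.beq_eq] at h'
    exact ⟨h'.1.1, h'.1.2, h'.2⟩
  have hpart : ∑ x ∈ range N, F x = ∑ k ∈ range NB, ∑ j ∈ range (bs k).D, F (fld 16 (bs k).st j) := by
    rw [Finset.sum_sigma']
    refine Finset.sum_bij' (fun x _ => (⟨fld 10 T.blk x, posOf T (bs (fld 10 T.blk x)) x⟩ : (_ : ℕ) × ℕ))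
      (fun p _ => fld 16 (bs p.1).st p.2) ?_ ?_ ?_ ?_ ?_
    · intro x hx
      have h := hcov x (mem_range.1 hx)
      simp only [mem_sigma, mem_range]
      exact ⟨h.1, h.2.1⟩
    · intro p hp'
      simp only [mem_sigma, mem_range] at hp' ⊢
      exact ((hmem p.1 hp'.1).2 p.2 hp'.2).1
    · intro x hx
      exact (hcov x (mem_range.1 hx)).2.2
    · intro p hp'
      obtain ⟨k, j⟩ := p
      simp only [mem_sigma, mem_range] at hp'
      have h := (hmem k hp'.1).2 j hp'.2
      simp [h.2.1, h.2.2]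
    · intro x hx
      simp only [(hcov x (mem_range.1 hx)).2.2]
  rw [hpart]
  refine Finset.sum_nonneg fun k hk => ?_
  rw [mem_range] at hk
  exact blockCheck_spec hJ (hmem k hk).1 (hblk k hk).2 _

end Vale.Agent.P359.Fast
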