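import Mathlib.Data.Nat.Bitwise

/-!
The integer check of a window certificate, written with recursors so that the kernel evaluates it
quickly.  States are `i * 2 ^ J + m` for an impurity level `i` and a bit mask `m` of occupied
orbitals.
-/

namespace Vale.Agent.P359.Fast

/-- `∑_{i < n} f i`. -/
noncomputable def sumTo (n : ℕ) (f : ℕ → ℕ) : ℕ := Nat.rec 0 (fun i r => Nat.add (f i) r) n

/-- `∀ i < n, f i`. -/
noncomputable def allTo (n : ℕ) (f : ℕ → Bool) : Bool := Nat.rec true (fun i r => f i && r) n

/-- `k z`, with `z` evaluated first. -/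
noncomputable def force {α : Type} (z : ℕ) (k : ℕ → α) : α :=
  Nat.rec (k 0) (fun m _ => k (Nat.add m 1)) z

/-- Field `p` of width `w`. -/
noncomputable def fld (w P p : ℕ) : ℕ :=
  Nat.mod (Nat.shiftRight P (Nat.mul w p)) (Nat.shiftLeft 1 w)

/-- Bit `a`. -/
noncomputable def bit (m a : ℕ) : Bool := Nat.beq (Nat.mod (Nat.shiftRight m a) 2) 1

/-- `v`, when `b`. -/
noncomputable def when' (b : Bool) (v : ℕ) : ℕ := cond b v 0

/-- Fixed parameters and tables. -/
structure Tab where
  S : ℕ
  J : ℕ
  /-- diagonal, 32-bit fields with offset `2 ^ 31` -/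
  C : ℕ
  /-- one-fermion table -/
  W : ℕ
  /-- two-fermion table, one packed matrix for each level -/
  G : ℕ → ℕ
  /-- row length of the two-fermion table -/
  K : ℕ
  /-- parity of the popcount, one bit for each mask -/
  par : ℕ
  /-- block of each state, 10-bit fields -/
  blk : ℕ

/-- A block of states. -/
structure Blk where
  D : ℕ
  /-- states, 16-bit fields -/
  st : ℕ
  /-- position of the state with a given mask, 8-bit fields -/
  pos : ℕ
  /-- the rows of the factor, packed -/
  B : ℕ → ℕ

/-- Parity of the number of occupied levels below `a`. -/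
noncomputable def parB (T : Tab) (m a : ℕ) : ℕ := fld 1 T.par (Nat.mod m (Nat.shiftLeft 1 a))

/-- `2 ^ 31 + σ c` from `cn = 2 ^ 31 + c`; `σ = -1` when `neg`. -/
noncomputable def signed (neg : Bool) (cn : ℕ) : ℕ := cond neg (Nat.sub 4294967296 cn) cn

/-- Start of the counts. -/
noncomputable def cntAt (D : ℕ) : ℕ := Nat.add (Nat.mul 64 D) 256

/-- Start of the failure mark. -/
noncomputable def badAt (D : ℕ) : ℕ := Nat.add (Nat.mul 128 D) 1024

/-- One matrix entry: value `v` (with offset) at state `y`. -/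
noncomputable def addEntry (T : Tab) (b : Blk) (v y : ℕ) : ℕ :=
  force (fld 8 b.pos (Nat.mod y (Nat.shiftLeft 1 T.J))) fun p =>
    cond (Nat.beq (fld 16 b.st p) y && Nat.blt p b.D)
      (Nat.shiftLeft (Nat.add v (Nat.shiftLeft 1 (cntAt b.D))) (Nat.mul 64 p))
      (Nat.shiftLeft 1 (badAt b.D))

/-- Row index in the two-fermion table. -/
noncomputable def gIdx (T : Tab) (i a b : ℕ) : ℕ :=
  Nat.add (Nat.mul i (Nat.div T.J 2)) (cond (Nat.ble (Nat.add (Nat.add a b) 1) T.J) a
    (Nat.sub (Nat.sub T.J 1) b))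

/-- The packed row of state `(i, m)`. -/
noncomputable def rowRaw (T : Tab) (b : Blk) (i m : ℕ) : ℕ :=
  Nat.add
    (addEntry T b (fld 32 T.C i) (Nat.add (Nat.shiftLeft i T.J) m))
    (Nat.add
      (sumTo T.J fun a => cond (bit m a)
        (force (Nat.sub m (Nat.shiftLeft 1 a)) fun r => force (Nat.add i a) fun L =>
          force (parB T m a) fun s1 =>
          sumTo T.J fun a' => cond (!bit r a' && Nat.ble a' L && Nat.ble L (Nat.add T.S a'))
            (force (Nat.sub L a') fun i' =>
              addEntry T b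
                (signed (Nat.beq (Nat.mod (Nat.add s1 (parB T r a')) 2) 0)
                  (fld 32 T.W (Nat.add (Nat.mul (Nat.add (Nat.mul L (Nat.add T.S 1)) i)
                    (Nat.add T.S 1)) i')))
                (Nat.add (Nat.shiftLeft i' T.J) (Nat.add r (Nat.shiftLeft 1 a')))) 0) 0)
      (sumTo T.J fun b1 => cond (bit m b1)
        (force (Nat.sub m (Nat.shiftLeft 1 b1)) fun m1 =>
          sumTo b1 fun a => cond (bit m1 a)
            (force (Nat.sub m1 (Nat.shiftLeft 1 a)) fun r =>
              force (Nat.add (Nat.add i a) b1) fun L =>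
              force (Nat.add (parB T m a) (parB T m1 b1)) fun s1 =>
              force (fld (Nat.mul 32 T.K) (T.G L) (gIdx T i a b1)) fun g =>
              sumTo T.J fun b2 => cond (!bit r b2 && Nat.ble b2 L)
                (sumTo b2 fun a2 => cond (!bit r a2 && Nat.ble (Nat.add a2 b2) L &&
                    Nat.ble L (Nat.add T.S (Nat.add a2 b2)))
                  (force (Nat.sub L (Nat.add a2 b2)) fun i' =>
                    force (Nat.add r (Nat.shiftLeft 1 b2)) fun r2 =>
                    addEntry T b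
                      (signed (Nat.beq (Nat.mod (Nat.add s1 (Nat.add (parB T r2 a2) (parB T r b2))) 2) 0)
                        (fld 32 g (gIdx T i' a2 b2)))
                      (Nat.add (Nat.shiftLeft i' T.J) (Nat.add r2 (Nat.shiftLeft 1 a2)))) 0) 0) 0) 0))

/-- Row `r` of the factor, spread to 64-bit fields: entries from column `r` on, 20-bit fields
with offset `2 ^ 19`. -/
noncomputable def bRow (b : Blk) (r : ℕ) : ℕ :=
  force (b.B r) fun P =>
    sumTo b.D fun l => Nat.shiftLeft (cond (Nat.ble r l) (fld 20 P (Nat.sub l r)) 524288)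
      (Nat.mul 64 l)

/-- A vector of `1`s in 64-bit fields. -/
noncomputable def ones (D : ℕ) : ℕ := sumTo D fun l => Nat.shiftLeft 1 (Nat.mul 64 l)

/-- Row `j` of `A - Bᵀ B`, with offset `2 ^ 63` in every field, or `none` as `0`. -/
noncomputable def eRow (T : Tab) (b : Blk) (U : ℕ) (R : ℕ) (TR : ℕ) (j : ℕ) : ℕ :=
  force (fld 16 b.st j) fun x =>
  force (rowRaw T b (Nat.shiftRight x T.J) (Nat.mod x (Nat.shiftLeft 1 T.J))) fun z =>
  cond (Nat.blt z (Nat.shiftLeft 1 (badAt b.D)))
    (force (sumTo b.D fun r => force (fld (Nat.mul 64 b.D) R r) fun Rr =>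
        Nat.mul (fld 64 Rr j) Rr) fun s1 =>
     force (sumTo b.D fun r => fld 64 (fld (Nat.mul 64 b.D) R r) j) fun s =>
      Nat.sub
        (Nat.add (Nat.add (Nat.mod z (Nat.shiftLeft 1 (cntAt b.D))) (Nat.mul 9223372036854775808 U))
          (Nat.add (Nat.mul 524288 (Nat.mul s U)) (Nat.mul 524288 TR)))
        (Nat.add (Nat.mul 2147483648 (Nat.shiftRight z (cntAt b.D)))
          (Nat.add s1 (Nat.mul 274877906944 (Nat.mul b.D U))))) 0

/-- `|d - 2 ^ 63|`. -/
noncomputable def absOff (d : ℕ) : ℕ :=
  Nat.add (Nat.sub d 9223372036854775808) (Nat.sub 9223372036854775808 d)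

/-- Packed absolute values of row `j`, with the row sum above them. -/
noncomputable def absRow (D z : ℕ) : ℕ :=
  sumTo D fun l => force (absOff (fld 64 z l)) fun a =>
    Nat.add (Nat.shiftLeft a (Nat.mul 64 l)) (Nat.shiftLeft a (Nat.mul 64 D))

/-- The block `k` of the states and the position table agree. -/
noncomputable def memberCheck (T : Tab) (k : ℕ) (b : Blk) : Bool :=
  Nat.ble b.D 255 && allTo b.D fun j => force (fld 16 b.st j) fun x =>
    Nat.blt x (Nat.shiftLeft (Nat.add T.S 1) T.J) && Nat.beq (fld 10 T.blk x) k &&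
      Nat.beq (fld 8 b.pos (Nat.mod x (Nat.shiftLeft 1 T.J))) j

/-- Every state in `[lo, lo + n)` is at its position in its block. -/
noncomputable def coverCheck (T : Tab) (bs : ℕ → Blk) (NB lo n : ℕ) : Bool :=
  allTo n fun o => force (Nat.add lo o) fun x => force (fld 10 T.blk x) fun k =>
    force (fld 8 (bs k).pos (Nat.mod x (Nat.shiftLeft 1 T.J))) fun p =>
      Nat.blt k NB && Nat.blt p (bs k).D && Nat.beq (fld 16 (bs k).st p) x

/-- The diagonal dominance of a block. -/
noncomputable def blockCheck (T : Tab) (b : Blk) : Bool :=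
  force (ones b.D) fun U =>
  force (sumTo b.D fun r => Nat.shiftLeft (bRow b r) (Nat.mul (Nat.mul 64 b.D) r)) fun R =>
  force (sumTo b.D fun r => bRow b r) fun TR =>
  force (sumTo b.D fun j => Nat.shiftLeft (eRow T b U R TR j) (Nat.mul (Nat.mul 64 b.D) j)) fun E =>
  force (sumTo b.D fun j => Nat.mod (absRow b.D (fld (Nat.mul 64 b.D) E j))
    (Nat.shiftLeft 1 (Nat.mul 64 b.D))) fun Cols =>
  allTo b.D fun j =>
    force (fld (Nat.mul 64 b.D) E j) fun z =>
    force (fld 64 z j) fun d =>
      Nat.ble (Nat.add (Nat.shiftRight (absRow b.D z) (Nat.mul 64 b.D)) (fld 64 Cols j))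
        (Nat.mul 4 (Nat.sub d 9223372036854775808))

end Vale.Agent.P359.Fast
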