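import Mathlib
import Vale.Agent.P359.FastCert.Defs

/-!
The packed arithmetic of the integer check.
-/

namespace Vale.Agent.P359.Fast

open Finset

theorem sumTo_eq (n : ℕ) (f : ℕ → ℕ) : sumTo n f = ∑ i ∈ range n, f i := by
  induction n with
  | zero => rfl
  | succ n ih =>
    rw [Finset.sum_range_succ, ← ih]
    show f n + sumTo n f = sumTo n f + f n
    exact Nat.add_comm _ _

theorem allTo_eq {n : ℕ} {f : ℕ → Bool} (h : allTo n f = true) : ∀ i < n, f i = true := by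
  induction n with
  | zero => simp
  | succ n ih =>
    intro i hi
    have h' : (f n && allTo n f) = true := h
    rw [Bool.and_eq_true] at h'
    rcases Nat.lt_succ_iff_lt_or_eq.1 hi with h1 | h1
    · exact ih h'.2 i h1
    · exact h1 ▸ h'.1

theorem force_eq {α : Type} (z : ℕ) (k : ℕ → α) : force z k = k z := by
  cases z <;> rfl

theorem fld_eq (w P p : ℕ) : fld w P p = P / 2 ^ (w * p) % 2 ^ w := by
  show (P >>> (w * p)) % (1 <<< w) = _
  rw [Nat.shiftRight_eq_div_pow, Nat.shiftLeft_eq, one_mul]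

theorem fld_lt (w P p : ℕ) : fld w P p < 2 ^ w := by
  rw [fld_eq]
  exact Nat.mod_lt _ (Nat.two_pow_pos w)

/-- `∑ d l * 2 ^ (w * l)`. -/
def pk (w n : ℕ) (d : ℕ → ℕ) : ℕ := ∑ l ∈ range n, d l * 2 ^ (w * l)

theorem pk_lt {w n : ℕ} {d : ℕ → ℕ} (hd : ∀ l < n, d l < 2 ^ w) : pk w n d < 2 ^ (w * n) := by
  induction n with
  | zero => simp [pk]
  | succ n ih =>
    rw [pk, Finset.sum_range_succ]
    have h1 := ih fun l hl => hd l (by omega)
    have h2 : d n + 1 ≤ 2 ^ w := hd n (by omega)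
    rw [pk] at h1
    calc (∑ l ∈ range n, d l * 2 ^ (w * l)) + d n * 2 ^ (w * n)
        < 2 ^ (w * n) + d n * 2 ^ (w * n) := by omega
      _ = (d n + 1) * 2 ^ (w * n) := by ring
      _ ≤ 2 ^ w * 2 ^ (w * n) := Nat.mul_le_mul_right _ h2
      _ = 2 ^ (w * (n + 1)) := by rw [← pow_add]; ring_nf

theorem fld_pk {w n : ℕ} {d : ℕ → ℕ} (hd : ∀ l < n, d l < 2 ^ w) {p : ℕ} (hp : p < n) :
    fld w (pk w n d) p = d p := by
  rw [fld_eq]
  have hsplit : pk w n d = pk w p d + 2 ^ (w * p) *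
      (d p + 2 ^ w * pk w (n - (p + 1)) (fun l => d (p + 1 + l))) := by
    obtain ⟨m, rfl⟩ : ∃ m, n = (p + 1) + m := ⟨n - (p + 1), by omega⟩
    rw [pk, Finset.sum_range_add, Finset.sum_range_succ, Nat.add_sub_cancel_left, pk, pk,
      Finset.mul_sum, mul_add, Finset.mul_sum]
    rw [add_assoc]
    congr 1
    congr 1
    · ring
    · refine Finset.sum_congr rfl fun l _ => ?_
      rw [show w * (p + 1 + l) = w * p + (w + w * l) by ring, pow_add, pow_add]
      ring
  rw [hsplit, Nat.add_mul_div_left _ _ (Nat.two_pow_pos _),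
    Nat.div_eq_of_lt (pk_lt fun l hl => hd l (by omega)), zero_add, Nat.add_mul_mod_self_left,
    Nat.mod_eq_of_lt (hd p hp)]

theorem pk_add (w n : ℕ) (d e : ℕ → ℕ) : pk w n (fun l => d l + e l) = pk w n d + pk w n e := by
  simp [pk, add_mul, Finset.sum_add_distrib]

theorem pk_mul (w n c : ℕ) (d : ℕ → ℕ) : pk w n (fun l => c * d l) = c * pk w n d := by
  simp [pk, Finset.mul_sum, mul_assoc]

theorem pk_congr {w n : ℕ} {d e : ℕ → ℕ} (h : ∀ l < n, d l = e l) : pk w n d = pk w n e :=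
  Finset.sum_congr rfl fun l hl => by rw [h l (mem_range.1 hl)]

theorem pk_cast (w n : ℕ) (d : ℕ → ℕ) :
    ((pk w n d : ℕ) : ℤ) = ∑ l ∈ range n, (d l : ℤ) * 2 ^ (w * l) := by
  simp [pk]

end Vale.Agent.P359.Fast
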