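import Vale.Agent.P359.FastCert.Rows

/-!
Diagonal dominance of a block gives positivity.
-/

namespace Vale.Agent.P359.Fast

open Finset

/-- Impurity level and mask of a state. -/
noncomputable def stI (T : Tab) (x : ℕ) : ℕ := Nat.shiftRight x T.J

/-- Mask of a state. -/
noncomputable def stM (T : Tab) (x : ℕ) : ℕ := Nat.mod x (Nat.shiftLeft 1 T.J)

/-- A row applied to a vector. -/
noncomputable def rowVal (T : Tab) (x : ℕ) (v : ℕ → ℝ) : ℝ :=
  tsum' (rowTerms T (stI T x) (stM T x)) fun e => (((e.1 : ℝ) - 2147483648) * v e.2)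

/-- Position of a state in a block. -/
noncomputable def posOf (T : Tab) (b : Blk) (y : ℕ) : ℕ := fld 8 b.pos (Nat.mod y (Nat.shiftLeft 1 T.J))

/-- Coefficient `(j, l)` of a block, before the offset. -/
noncomputable def coefV (T : Tab) (b : Blk) (x l : ℕ) : ℕ :=
  tsum' (rowTerms T (stI T x) (stM T x)) fun e => if posOf T b e.2 = l then e.1 else 0

/-- Number of entries at `(j, l)`. -/
noncomputable def coefN (T : Tab) (b : Blk) (x l : ℕ) : ℕ :=
  tsum' (rowTerms T (stI T x) (stM T x)) fun e => if posOf T b e.2 = l then 1 else 0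

theorem tsum'_cons {M : Type} [AddCommMonoid M] (x : ℕ × ℕ) (l : List (ℕ × ℕ)) (f : ℕ × ℕ → M) :
    tsum' (x :: l) f = f x + tsum' l f := by simp [tsum']

theorem entries_good (T : Tab) (b : Blk) : ∀ l : List (ℕ × ℕ),
    tsum' l (fun e => addEntry T b e.1 e.2) < 2 ^ badAt b.D →
    ∀ e ∈ l, posOf T b e.2 < b.D ∧ fld 16 b.st (posOf T b e.2) = e.2
  | [], _, e, he => by simp at he
  | x :: l, h, e, he => by
    rw [tsum'_cons] at h
    rcases List.mem_cons.1 he with h1 | h1
    · subst h1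
      have h2 : addEntry T b e.1 e.2 < 2 ^ badAt b.D := by omega
      simp only [addEntry, force_eq] at h2
      by_cases hc : (Nat.beq (fld 16 b.st (posOf T b e.2)) e.2 && Nat.blt (posOf T b e.2) b.D) = true
      · rw [Bool.and_eq_true, Nat.beq_eq, Nat.blt_eq] at hc
        exact ⟨hc.2, hc.1⟩
      · rw [Bool.not_eq_true] at hc
        simp only [posOf] at hc
        rw [hc] at h2
        simp only [cond_false] at h2
        exact absurd h2 (by
          show ¬ (1 <<< badAt b.D < _)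
          rw [Nat.one_shiftLeft]; exact lt_irrefl _)
    · exact entries_good T b l (by omega) e h1

theorem addEntry_good (T : Tab) (b : Blk) (v y : ℕ)
    (h : posOf T b y < b.D ∧ fld 16 b.st (posOf T b y) = y) :
    addEntry T b v y =
      v * 2 ^ (64 * posOf T b y) + 2 ^ cntAt b.D * 2 ^ (64 * posOf T b y) := by
  simp only [addEntry, force_eq]
  have hc : (Nat.beq (fld 16 b.st (posOf T b y)) y && Nat.blt (posOf T b y) b.D) = true := by
    rw [Bool.and_eq_true, Nat.beq_eq, Nat.blt_eq]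
    exact ⟨h.2, h.1⟩
  simp only [posOf] at hc
  rw [hc]
  simp only [cond_true]
  show (v + 1 <<< cntAt b.D) <<< (64 * posOf T b y) = _
  rw [Nat.shiftLeft_eq, Nat.shiftLeft_eq, one_mul, add_mul]

theorem split_row (T : Tab) (b : Blk) : ∀ l : List (ℕ × ℕ),
    (∀ e ∈ l, posOf T b e.2 < b.D ∧ fld 16 b.st (posOf T b e.2) = e.2) →
    tsum' l (fun e => addEntry T b e.1 e.2) =
      pk 64 b.D (fun p => tsum' l fun e => if posOf T b e.2 = p then e.1 else 0) +
        2 ^ cntAt b.D * pk 64 b.D (fun p => tsum' l fun e => if posOf T b e.2 = p then 1 else 0)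
  | [], _ => by simp [tsum', pk]
  | x :: l, h => by
    simp only [tsum'_cons, pk_add, mul_add]
    rw [split_row T b l fun e he => h e (List.mem_cons_of_mem _ he),
      addEntry_good T b _ _ (h x List.mem_cons_self)]
    have hx := (h x List.mem_cons_self).1
    have hd : ∀ c, pk 64 b.D (fun p => if posOf T b x.2 = p then c else 0) =
        c * 2 ^ (64 * posOf T b x.2) := by
      intro c
      rw [pk, Finset.sum_eq_single (posOf T b x.2)]
      · simp
      · intro p _ hp; simp [Ne.symm hp]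
      · intro hn; exact absurd (mem_range.2 hx) hn
    rw [hd, hd]
    ring

theorem tsum'_le {l : List (ℕ × ℕ)} {f : ℕ × ℕ → ℕ} {c : ℕ} (h : ∀ e ∈ l, f e ≤ c) :
    tsum' l f ≤ l.length * c := by
  induction l with
  | nil => simp [tsum']
  | cons x l ih =>
    rw [tsum'_cons, List.length_cons, add_mul, one_mul]
    have := ih fun e he => h e (List.mem_cons_of_mem _ he)
    have := h x List.mem_cons_self
    omega

theorem coefV_le (T : Tab) (hJ : T.J ≤ 10) (b : Blk) (x l : ℕ) : coefV T b x l ≤ 2 ^ 46 := by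
  refine (tsum'_le (c := 4294967296) fun e he => ?_).trans ?_
  · split_ifs
    · exact rowTerms_fst_le T _ _ e he
    · exact Nat.zero_le _
  · have := rowTerms_length T hJ (stI T x) (stM T x)
    calc _ ≤ 16384 * 4294967296 := Nat.mul_le_mul_right _ this
      _ = 2 ^ 46 := by norm_num

theorem coefN_le (T : Tab) (hJ : T.J ≤ 10) (b : Blk) (x l : ℕ) : coefN T b x l ≤ 2 ^ 14 := by
  refine (tsum'_le (c := 1) fun e _ => ?_).trans ?_
  · split_ifs <;> omega
  · have := rowTerms_length T hJ (stI T x) (stM T x)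
    simpa using this

/-- Digit `(r, l)` of the factor, with offset `2 ^ 19`. -/
noncomputable def bDig (b : Blk) (r l : ℕ) : ℕ :=
  cond (Nat.ble r l) (fld 20 (b.B r) (Nat.sub l r)) 524288

theorem bDig_lt (b : Blk) (r l : ℕ) : bDig b r l < 2 ^ 20 := by
  unfold bDig
  cases Nat.ble r l
  · norm_num
  · exact fld_lt 20 _ _

theorem bRow_eq (b : Blk) (r : ℕ) : bRow b r = pk 64 b.D (bDig b r) := by
  simp only [bRow, force_eq, sumTo_eq, pk]
  refine Finset.sum_congr rfl fun l _ => ?_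
  show bDig b r l <<< (64 * l) = _
  rw [Nat.shiftLeft_eq]

theorem ones_eq (D : ℕ) : ones D = pk 64 D fun _ => 1 := by
  simp only [ones, sumTo_eq, pk]
  refine Finset.sum_congr rfl fun l _ => ?_
  show (1 : ℕ) <<< (64 * l) = _
  rw [Nat.shiftLeft_eq]

theorem sumTo_shift (D : ℕ) (z : ℕ → ℕ) :
    sumTo D (fun r => Nat.shiftLeft (z r) (Nat.mul (Nat.mul 64 D) r)) = pk (64 * D) D z := by
  simp only [sumTo_eq, pk]
  refine Finset.sum_congr rfl fun r _ => ?_
  show z r <<< (64 * D * r) = _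
  rw [Nat.shiftLeft_eq]

/-- Entry `(j, l)` of `A - Bᵀ B`. -/
noncomputable def eEnt (T : Tab) (b : Blk) (j l : ℕ) : ℤ :=
  ((coefV T b (fld 16 b.st j) l : ℤ) - 2147483648 * coefN T b (fld 16 b.st j) l) -
    ∑ r ∈ range b.D, ((bDig b r j : ℤ) - 524288) * ((bDig b r l : ℤ) - 524288)

theorem eEnt_abs (T : Tab) (hJ : T.J ≤ 10) (b : Blk) (hD : b.D ≤ 255) (j l : ℕ) :
    |eEnt T b j l| < 2 ^ 53 := by
  have h1 : (coefV T b (fld 16 b.st j) l : ℤ) ≤ 2 ^ 46 := by exact_mod_cast coefV_le T hJ b _ l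
  have h2 : (coefN T b (fld 16 b.st j) l : ℤ) ≤ 2 ^ 14 := by exact_mod_cast coefN_le T hJ b _ l
  have h3 : |∑ r ∈ range b.D, ((bDig b r j : ℤ) - 524288) * ((bDig b r l : ℤ) - 524288)| ≤
      255 * 2 ^ 38 := by
    refine (Finset.abs_sum_le_sum_abs _ _).trans ((Finset.sum_le_card_nsmul _ _ (2 ^ 38) ?_).trans ?_)
    · intro r _
      have hb : ∀ c, |(bDig b r c : ℤ) - 524288| ≤ 2 ^ 19 := fun c => by
        have hh : (bDig b r c : ℤ) < 2 ^ 20 := by exact_mod_cast bDig_lt b r c
        rw [abs_le]; constructor <;> omega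
      rw [abs_mul]
      calc _ ≤ (2 : ℤ) ^ 19 * 2 ^ 19 := mul_le_mul (hb j) (hb l) (abs_nonneg _) (by norm_num)
        _ = 2 ^ 38 := by norm_num
    · rw [nsmul_eq_mul, card_range]
      exact mul_le_mul_of_nonneg_right (by exact_mod_cast hD) (by norm_num)
  have h4 : (0 : ℤ) ≤ coefV T b (fld 16 b.st j) l := by positivity
  have h5 : (0 : ℤ) ≤ coefN T b (fld 16 b.st j) l := by positivity
  rw [abs_le] at h3
  simp only [eEnt, abs_lt]
  constructor <;> omega

theorem eRow_eq (T : Tab) (hJ : T.J ≤ 10) (b : Blk) (hD : b.D ≤ 255) {j : ℕ} (hj : j < b.D)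
    (hz : rowRaw T b (stI T (fld 16 b.st j)) (stM T (fld 16 b.st j)) < 2 ^ badAt b.D) :
    eRow T b (ones b.D) (pk (64 * b.D) b.D (bRow b)) (∑ r ∈ range b.D, bRow b r) j =
      pk 64 b.D fun l => (eEnt T b j l + 9223372036854775808).toNat := by
  set x := fld 16 b.st j
  set D := b.D
  rw [rowRaw_eq] at hz
  have hsplit := split_row T b _ (entries_good T b _ hz)
  set V := pk 64 D (coefV T b x)
  set C := pk 64 D (coefN T b x)
  have hz' : rowRaw T b (stI T x) (stM T x) = V + 2 ^ cntAt D * C := by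
    rw [rowRaw_eq]; exact hsplit
  have hbig : ∀ d : ℕ → ℕ, (∀ l, d l ≤ 2 ^ 46) → pk 64 D d < 2 ^ cntAt D := by
    intro d hd
    refine lt_of_lt_of_le (pk_lt fun l _ => lt_of_le_of_lt (hd l) (by norm_num)) ?_
    exact Nat.pow_le_pow_right (by norm_num) (by show 64 * D ≤ 64 * D + 256; omega)
  have hV : V < 2 ^ cntAt D := hbig _ (coefV_le T hJ b x)
  have hmod : (V + 2 ^ cntAt D * C) % 2 ^ cntAt D = V := by
    rw [Nat.add_mul_mod_self_left, Nat.mod_eq_of_lt hV]
  have hdiv : (V + 2 ^ cntAt D * C) / 2 ^ cntAt D = C := by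
    rw [Nat.add_mul_div_left _ _ (Nat.two_pow_pos _), Nat.div_eq_of_lt hV, zero_add]
  have hR : ∀ r < D, bRow b r < 2 ^ (64 * D) := fun r _ => by
    rw [bRow_eq]; exact pk_lt fun l _ => lt_of_lt_of_le (bDig_lt b r l) (by norm_num)
  have hfld : ∀ r ∈ range D, fld (64 * D) (pk (64 * D) D (bRow b)) r = pk 64 D (bDig b r) :=
    fun r hr => by rw [fld_pk hR (mem_range.1 hr), bRow_eq]
  have hdig : ∀ r, fld 64 (pk 64 D (bDig b r)) j = bDig b r j := fun r =>
    fld_pk (fun l _ => lt_of_lt_of_le (bDig_lt b r l) (by norm_num)) hj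
  have hlt : (cond (Nat.blt (rowRaw T b (stI T x) (stM T x)) (Nat.shiftLeft 1 (badAt D))) 1 0 : ℕ) = 1 := by
    have : Nat.blt (rowRaw T b (stI T x) (stM T x)) (Nat.shiftLeft 1 (badAt D)) = true := by
      rw [Nat.blt_eq]
      show _ < 1 <<< badAt D
      rw [Nat.one_shiftLeft, rowRaw_eq]; exact hz
    rw [this]; rfl
  have hblt : Nat.blt (rowRaw T b (stI T x) (stM T x)) (Nat.shiftLeft 1 (badAt D)) = true := by
    by_contra hh
    rw [Bool.not_eq_true] at hh
    rw [hh] at hlt
    simp at hlt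
  simp only [stI, stM] at hblt
  simp only [eRow, force_eq]
  rw [hblt]
  simp only [cond_true, sumTo_eq]
  show ((rowRaw T b (stI T x) (stM T x)) % (1 <<< cntAt D) + 9223372036854775808 * ones D +
      (524288 * ((∑ r ∈ range D, fld 64 (fld (64 * D) (pk (64 * D) D (bRow b)) r) j) * ones D) +
        524288 * ∑ r ∈ range D, bRow b r)) -
      (2147483648 * ((rowRaw T b (stI T x) (stM T x)) >>> cntAt D) +
        ((∑ r ∈ range D, fld 64 (fld (64 * D) (pk (64 * D) D (bRow b)) r) j *
            fld (64 * D) (pk (64 * D) D (bRow b)) r) + 274877906944 * (D * ones D))) = _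
  rw [Nat.one_shiftLeft, Nat.shiftRight_eq_div_pow, hz', hmod, hdiv,
    Finset.sum_congr rfl (fun r hr => by rw [hfld r hr, hdig r] :
      ∀ r ∈ range D, fld 64 (fld (64 * D) (pk (64 * D) D (bRow b)) r) j = bDig b r j),
    Finset.sum_congr rfl (fun r hr => by rw [hfld r hr, hdig r] :
      ∀ r ∈ range D, fld 64 (fld (64 * D) (pk (64 * D) D (bRow b)) r) j *
        fld (64 * D) (pk (64 * D) D (bRow b)) r = bDig b r j * pk 64 D (bDig b r)),
    Finset.sum_congr rfl (fun r _ => bRow_eq b r), ones_eq]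
  refine Nat.sub_eq_of_eq_add ?_
  zify
  simp only [V, C, pk_cast, Nat.cast_one, one_mul]
  have htoNat : ∀ l, (((eEnt T b j l + 9223372036854775808).toNat : ℕ) : ℤ) =
      eEnt T b j l + 9223372036854775808 := fun l => by
    have := eEnt_abs T hJ b hD j l
    rw [abs_lt] at this
    exact Int.toNat_of_nonneg (by linarith)
  simp only [htoNat]
  simp only [eEnt, Finset.mul_sum]
  rw [Finset.sum_comm (s := range D) (t := range D) (f := fun r l => (524288 : ℤ) * ((bDig b r l : ℤ) * 2 ^ (64 * l))),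
    Finset.sum_comm (s := range D) (t := range D) (f := fun r l => (bDig b r j : ℤ) * ((bDig b r l : ℤ) * 2 ^ (64 * l)))]
  simp only [← Finset.sum_add_distrib]
  refine Finset.sum_congr rfl fun l _ => ?_
  have e : ∑ r ∈ range D, ((bDig b r j : ℤ) - 524288) * ((bDig b r l : ℤ) - 524288) =
      (∑ r ∈ range D, (bDig b r j : ℤ) * (bDig b r l : ℤ)) -
        524288 * (∑ r ∈ range D, (bDig b r j : ℤ)) - 524288 * (∑ r ∈ range D, (bDig b r l : ℤ)) +
        274877906944 * (D : ℤ) := by
    have : ∀ r, ((bDig b r j : ℤ) - 524288) * ((bDig b r l : ℤ) - 524288) =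
        (bDig b r j : ℤ) * (bDig b r l : ℤ) - 524288 * (bDig b r j : ℤ) - 524288 * (bDig b r l : ℤ) +
          274877906944 := fun r => by ring
    simp only [this, Finset.sum_add_distrib, Finset.sum_sub_distrib, ← Finset.mul_sum,
      Finset.sum_const, card_range, nsmul_eq_mul]
    ring
  simp only [← mul_assoc, ← Finset.sum_mul, ← Finset.mul_sum]
  rw [e]
  ring

theorem absOff_eq {e : ℤ} (h : |e| < 2 ^ 53) :
    (absOff (e + 9223372036854775808).toNat : ℤ) = |e| := by
  rw [abs_lt] at h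
  show (((e + 9223372036854775808).toNat - 9223372036854775808 +
    (9223372036854775808 - (e + 9223372036854775808).toNat) : ℕ) : ℤ) = |e|
  rcases le_or_gt 0 e with he | he
  · rw [abs_of_nonneg he]; omega
  · rw [abs_of_neg he]; omega

theorem absRow_eq {D z : ℕ} {a : ℕ → ℕ} (h : ∀ l < D, absOff (fld 64 z l) = a l) :
    absRow D z = pk 64 D a + (∑ l ∈ range D, a l) * 2 ^ (64 * D) := by
  simp only [absRow, sumTo_eq, force_eq, pk, Finset.sum_mul, ← Finset.sum_add_distrib]
  refine Finset.sum_congr rfl fun l hl => ?_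
  show absOff (fld 64 z l) <<< (64 * l) + absOff (fld 64 z l) <<< (64 * D) = _
  rw [h l (mem_range.1 hl), Nat.shiftLeft_eq, Nat.shiftLeft_eq]

theorem quad_nonneg {n : ℕ} (E : ℕ → ℕ → ℤ) (h : ∀ j < n,
      (∑ l ∈ range n, |E j l|) + (∑ l ∈ range n, |E l j|) ≤ 4 * E j j) (v : ℕ → ℝ) :
    0 ≤ ∑ j ∈ range n, ∑ l ∈ range n, (E j l : ℝ) * v j * v l := by
  have hlow : ∀ j l, (if l = j then 2 * (E j j : ℝ) * v j ^ 2 else 0) -
      |(E j l : ℝ)| * (v j ^ 2 + v l ^ 2) / 2 ≤ (E j l : ℝ) * v j * v l := by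
    intro j l
    split_ifs with he
    · subst he
      nlinarith [mul_le_mul_of_nonneg_right (le_abs_self (E l l : ℝ)) (sq_nonneg (v l))]
    · have h1 : |v j * v l| ≤ (v j ^ 2 + v l ^ 2) / 2 := by
        rw [abs_mul]
        nlinarith [sq_nonneg (|v j| - |v l|), sq_abs (v j), sq_abs (v l)]
      have h2 := mul_le_mul_of_nonneg_left h1 (abs_nonneg (E j l : ℝ))
      rw [← abs_mul] at h2
      have h3 := neg_abs_le ((E j l : ℝ) * (v j * v l))
      rw [mul_assoc, mul_div_assoc]
      linarith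
  refine le_trans ?_ (Finset.sum_le_sum fun j _ => Finset.sum_le_sum fun l _ => hlow j l)
  have e : ∀ j l, |(E j l : ℝ)| * (v j ^ 2 + v l ^ 2) / 2 =
      |(E j l : ℝ)| * (v j ^ 2 / 2) + |(E j l : ℝ)| * (v l ^ 2 / 2) := fun j l => by ring
  simp only [Finset.sum_sub_distrib, e, Finset.sum_add_distrib]
  rw [Finset.sum_comm (f := fun j l => |(E j l : ℝ)| * (v l ^ 2 / 2))]
  simp only [← Finset.sum_mul, ← Finset.sum_add_distrib, ← Finset.sum_sub_distrib]
  refine Finset.sum_nonneg fun j hj => ?_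
  rw [Finset.sum_ite_eq', if_pos hj]
  have hh : (∑ l ∈ range n, |(E j l : ℝ)|) + (∑ l ∈ range n, |(E l j : ℝ)|) ≤ 4 * (E j j : ℝ) := by
    exact_mod_cast h j (mem_range.1 hj)
  nlinarith [sq_nonneg (v j)]

theorem blockCheck_spec {T : Tab} (hJ : T.J ≤ 10) {b : Blk} (hD : b.D ≤ 255)
    (h : blockCheck T b = true) (u : ℕ → ℝ) :
    0 ≤ ∑ j ∈ range b.D, u (fld 16 b.st j) * rowVal T (fld 16 b.st j) u := by
  set D := b.D
  have hchk := h
  simp only [blockCheck, force_eq, sumTo_shift] at hchk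
  have hTR : sumTo D (fun r => bRow b r) = ∑ r ∈ range D, bRow b r := sumTo_eq _ _
  rw [hTR] at hchk
  set Z := fun j => eRow T b (ones D) (pk (64 * D) D (bRow b)) (∑ r ∈ range D, bRow b r) j
  have hall := allTo_eq hchk
  -- every row is within range
  have hzlt : ∀ j < D, Z j < 2 ^ (64 * D) ∨ 2 ^ (64 * D) ≤ Z j := fun j _ => lt_or_ge _ _
  have hgood : ∀ j < D,
      rowRaw T b (stI T (fld 16 b.st j)) (stM T (fld 16 b.st j)) < 2 ^ badAt D →
      Z j = pk 64 D fun l => (eEnt T b j l + 9223372036854775808).toNat :=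
    fun j hj hz => eRow_eq T hJ b hD hj hz
  have hnd : ∀ j l, (eEnt T b j l + 9223372036854775808).toNat < 2 ^ 64 := fun j l => by
    have := eEnt_abs T hJ b hD j l
    rw [abs_lt] at this
    omega
  have hbad : ∀ j < D, ¬rowRaw T b (stI T (fld 16 b.st j)) (stM T (fld 16 b.st j)) < 2 ^ badAt D →
      Z j = 0 := fun j _ hz => by
    have hh : Nat.blt (rowRaw T b (stI T (fld 16 b.st j)) (stM T (fld 16 b.st j)))
        (Nat.shiftLeft 1 (badAt D)) = false := by
      rw [← Bool.not_eq_true, Nat.blt_eq]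
      show ¬ _ < 1 <<< badAt D
      rw [Nat.one_shiftLeft]; exact hz
    simp only [stI, stM] at hh
    simp only [Z, eRow, force_eq]
    rw [hh]; rfl
  have hZ : ∀ j < D, Z j < 2 ^ (64 * D) := fun j hj => by
    by_cases hz : rowRaw T b (stI T (fld 16 b.st j)) (stM T (fld 16 b.st j)) < 2 ^ badAt D
    · rw [hgood j hj hz]; exact pk_lt fun l _ => hnd j l
    · rw [hbad j hj hz]; exact Nat.two_pow_pos _
  have hrow : ∀ j < D, fld (64 * D) (pk (64 * D) D Z) j = Z j := fun j hj => fld_pk hZ hj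
  -- no row is marked as failed
  have hz : ∀ j < D, rowRaw T b (stI T (fld 16 b.st j)) (stM T (fld 16 b.st j)) < 2 ^ badAt D := by
    intro j hj
    by_contra hz
    have h1 := hall j hj
    rw [Nat.ble_eq] at h1
    change absRow D (fld (64 * D) (pk (64 * D) D Z) j) >>> (64 * D) + _ ≤
      4 * (fld 64 (fld (64 * D) (pk (64 * D) D Z) j) j - 9223372036854775808) at h1
    rw [hrow j hj, hbad j hj hz] at h1
    have h0 : ∀ l, fld 64 0 l = 0 := fun l => by simp [fld_eq]
    rw [h0, absRow_eq (a := fun _ => 9223372036854775808) (fun l _ => by rw [h0]; rfl),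
      Nat.shiftRight_eq_div_pow, Nat.add_mul_div_right _ _ (Nat.two_pow_pos _),
      Finset.sum_const, card_range, smul_eq_mul,
      Nat.div_eq_of_lt (pk_lt fun l _ => by norm_num)] at h1
    have : 0 < D * 9223372036854775808 := Nat.mul_pos (by omega) (by norm_num)
    omega
  set a : ℕ → ℕ → ℕ := fun j l => absOff (eEnt T b j l + 9223372036854775808).toNat
  have ha : ∀ j l, (a j l : ℤ) = |eEnt T b j l| := fun j l => absOff_eq (eEnt_abs T hJ b hD j l)
  have hdig : ∀ j < D, ∀ l < D, fld 64 (Z j) l = (eEnt T b j l + 9223372036854775808).toNat :=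
    fun j hj l hl => by rw [hgood j hj (hz j hj), fld_pk (fun l _ => hnd j l) hl]
  have habs : ∀ j < D, absRow D (Z j) = pk 64 D (a j) + (∑ l ∈ range D, a j l) * 2 ^ (64 * D) :=
    fun j hj => absRow_eq fun l hl => by rw [hdig j hj l hl]
  have halt : ∀ j l, a j l < 2 ^ 53 := fun j l => by
    have := eEnt_abs T hJ b hD j l
    rw [← ha] at this
    exact_mod_cast this
  have hpa : ∀ j, pk 64 D (a j) < 2 ^ (64 * D) := fun j =>
    pk_lt fun l _ => lt_of_lt_of_le (halt j l) (by norm_num)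
  have hcols : sumTo D (fun j => Nat.mod (absRow D (fld (Nat.mul 64 D) (pk (64 * D) D Z) j))
      (Nat.shiftLeft 1 (Nat.mul 64 D))) = pk 64 D fun l => ∑ j ∈ range D, a j l := by
    rw [sumTo_eq]
    show ∑ j ∈ range D, absRow D (fld (64 * D) (pk (64 * D) D Z) j) % (1 <<< (64 * D)) = _
    rw [Nat.one_shiftLeft, Finset.sum_congr rfl (fun j hj => by
      rw [hrow j (mem_range.1 hj), habs j (mem_range.1 hj), Nat.add_mul_mod_self_right,
        Nat.mod_eq_of_lt (hpa j)] :
      ∀ j ∈ range D, absRow D (fld (64 * D) (pk (64 * D) D Z) j) % 2 ^ (64 * D) = pk 64 D (a j))]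
    simp only [pk, Finset.sum_mul]
    exact Finset.sum_comm
  have hsum : ∀ l, ∑ j ∈ range D, a j l < 2 ^ 64 := fun l => by
    refine lt_of_le_of_lt (Finset.sum_le_card_nsmul _ _ (2 ^ 53) fun j _ => (halt j l).le) ?_
    rw [card_range, smul_eq_mul]
    calc D * 2 ^ 53 ≤ 255 * 2 ^ 53 := Nat.mul_le_mul_right _ hD
      _ < 2 ^ 64 := by norm_num
  have hdom : ∀ j < D, (∑ l ∈ range D, |eEnt T b j l|) + (∑ l ∈ range D, |eEnt T b l j|) ≤
      4 * eEnt T b j j := by
    intro j hj
    have h1 := hall j hj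
    rw [Nat.ble_eq, hcols] at h1
    change absRow D (fld (64 * D) (pk (64 * D) D Z) j) >>> (64 * D) +
      fld 64 (pk 64 D fun l => ∑ j ∈ range D, a j l) j ≤
      4 * (fld 64 (fld (64 * D) (pk (64 * D) D Z) j) j - 9223372036854775808) at h1
    rw [hrow j hj, hdig j hj j hj, fld_pk (fun l _ => hsum l) hj, habs j hj,
      Nat.shiftRight_eq_div_pow, Nat.add_mul_div_right _ _ (Nat.two_pow_pos _),
      Nat.div_eq_of_lt (hpa j), zero_add] at h1
    have hb := eEnt_abs T hJ b hD j j
    rw [abs_lt] at hb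
    have hj1 : (a j j : ℤ) ≤ ∑ l ∈ range D, (a j l : ℤ) :=
      Finset.single_le_sum (f := fun l => (a j l : ℤ)) (fun _ _ => Int.natCast_nonneg _) (mem_range.2 hj)
    have hnn : (0 : ℤ) ≤ ∑ l ∈ range D, (a l j : ℤ) := Finset.sum_nonneg fun _ _ => Int.natCast_nonneg _
    simp only [← ha]
    have h2 : ((∑ l ∈ range D, a j l : ℕ) : ℤ) + ((∑ l ∈ range D, a l j : ℕ) : ℤ) ≤
        4 * (((eEnt T b j j + 9223372036854775808).toNat - 9223372036854775808 : ℕ) : ℤ) := by
      exact_mod_cast h1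
    push_cast at h2
    have hae := ha j j
    rcases le_or_gt 0 (eEnt T b j j) with hE | hE
    · omega
    · rw [abs_of_neg hE] at hae
      omega
  have hrv : ∀ j < D, rowVal T (fld 16 b.st j) u = ∑ l ∈ range D,
      ((coefV T b (fld 16 b.st j) l : ℝ) - 2147483648 * coefN T b (fld 16 b.st j) l) *
        u (fld 16 b.st l) := by
    intro j hj
    have hgd := entries_good T b _ (by rw [← rowRaw_eq]; exact hz j hj)
    simp only [rowVal, coefV, coefN]
    generalize rowTerms T (stI T (fld 16 b.st j)) (stM T (fld 16 b.st j)) = L at hgd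
    induction L with
    | nil => simp [tsum']
    | cons e L ih =>
      rw [tsum'_cons, ih fun e he => hgd e (List.mem_cons_of_mem _ he)]
      have hp := hgd e List.mem_cons_self
      have hs : ∀ c : ℕ, ∑ l ∈ range D, ((if posOf T b e.2 = l then c else 0 : ℕ) : ℝ) *
          u (fld 16 b.st l) = (c : ℝ) * u e.2 := by
        intro c
        rw [Finset.sum_eq_single (posOf T b e.2)]
        · rw [if_pos rfl, hp.2]
        · intro l _ hl; rw [if_neg (Ne.symm hl)]; simp
        · intro hn; exact absurd (mem_range.2 hp.1) hn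
      have key : ∀ a1 a2 c1 c2 w : ℝ, (a1 + a2 - 2147483648 * (c1 + c2)) * w =
          (a1 * w - 2147483648 * (c1 * w)) + (a2 - 2147483648 * c2) * w := fun _ _ _ _ _ => by ring
      simp only [tsum'_cons, Nat.cast_add, key]
      rw [Finset.sum_add_distrib, Finset.sum_sub_distrib, ← Finset.mul_sum, hs, hs, Nat.cast_one,
        one_mul, sub_mul]
  have hB : ∀ j l, (eEnt T b j l : ℝ) =
      ((coefV T b (fld 16 b.st j) l : ℝ) - 2147483648 * coefN T b (fld 16 b.st j) l) -
        ∑ r ∈ range D, ((bDig b r j : ℝ) - 524288) * ((bDig b r l : ℝ) - 524288) := fun j l => by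
    simp only [eEnt]; push_cast; rfl
  set X := fun j => u (fld 16 b.st j)
  have hq := quad_nonneg (n := D) (eEnt T b) hdom X
  have hsq : 0 ≤ ∑ r ∈ range D, (∑ j ∈ range D, ((bDig b r j : ℝ) - 524288) * X j) ^ 2 :=
    Finset.sum_nonneg fun r _ => sq_nonneg _
  have hfin : ∑ j ∈ range D, u (fld 16 b.st j) * rowVal T (fld 16 b.st j) u =
      (∑ j ∈ range D, ∑ l ∈ range D, (eEnt T b j l : ℝ) * X j * X l) +
        ∑ r ∈ range D, (∑ j ∈ range D, ((bDig b r j : ℝ) - 524288) * X j) ^ 2 := by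
    have e2 : ∑ r ∈ range D, (∑ j ∈ range D, ((bDig b r j : ℝ) - 524288) * X j) ^ 2 =
        ∑ j ∈ range D, ∑ l ∈ range D, (∑ r ∈ range D,
          ((bDig b r j : ℝ) - 524288) * ((bDig b r l : ℝ) - 524288)) * X j * X l := by
      simp only [sq, Finset.sum_mul, Finset.mul_sum]
      rw [Finset.sum_comm]
      refine Finset.sum_congr rfl fun j _ => ?_
      rw [Finset.sum_comm]
      exact Finset.sum_congr rfl fun l _ => Finset.sum_congr rfl fun r _ => by ring
    rw [e2, ← Finset.sum_add_distrib]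
    refine Finset.sum_congr rfl fun j hj => ?_
    rw [hrv j (mem_range.1 hj), Finset.mul_sum, ← Finset.sum_add_distrib]
    refine Finset.sum_congr rfl fun l _ => ?_
    rw [hB]
    ring
  rw [hfin]
  linarith

end Vale.Agent.P359.Fast
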