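import Vale.Agent.P359.FastCert.Block
import Vale.Agent.P359.Basic

/-!
The window form of the tables, written with the rows of the states.
-/

namespace Vale.Agent.P359.Fast

open Finset

/-- The scale `2 ^ 24` of the tables. -/
noncomputable def scale : ℝ := 16777216

/-- Diagonal of a table. -/
noncomputable def cR (T : Tab) (i : ℕ) : ℝ := ((fld 32 T.C i : ℝ) - 2147483648) / scale

/-- One-fermion coefficients of a table. -/
noncomputable def wR (T : Tab) (i a i' a' : ℕ) : ℝ :=
  if i + a = i' + a' then
    ((fld 32 T.W (((i + a) * (T.S + 1) + i) * (T.S + 1) + i') : ℝ) - 2147483648) / scale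
  else 0

/-- Two-fermion coefficients of a table. -/
noncomputable def gR (T : Tab) (i a b i' a' b' : ℕ) : ℝ :=
  if i + a + b = i' + a' + b' then
    ((fld 32 (fld (32 * T.K) (T.G (i + a + b)) (gIdx T i a b)) (gIdx T i' a' b') : ℝ) - 2147483648) /
      scale
  else 0

/-- The mask of a set of levels. -/
def enc (s : Finset ℕ) : ℕ := ∑ a ∈ s, 2 ^ a

theorem bit_enc (s : Finset ℕ) (a : ℕ) : bit (enc s) a = decide (a ∈ s) := by
  have h : a ∈ s ↔ (enc s).testBit a = true := by
    rw [← Nat.mem_bitIndices]
    conv_lhs => rw [← Finset.toFinset_bitIndices_sum_two_pow s, List.mem_toFinset]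
    rfl
  have h2 : bit (enc s) a = (enc s).testBit a := by
    rw [Nat.testBit_eq_decide_div_mod_eq, Bool.eq_iff_iff]
    show (Nat.beq ((enc s >>> a) % 2) 1 = true) ↔ _
    rw [Nat.beq_eq, Nat.shiftRight_eq_div_pow, decide_eq_true_iff]
  rw [h2]
  by_cases ha : a ∈ s
  · simp [ha, h.1 ha]
  · have : ¬ (enc s).testBit a = true := fun e => ha (h.2 e)
    simp [ha, this]

theorem enc_lt {s : Finset ℕ} {J : ℕ} (h : ∀ a ∈ s, a < J) : enc s < 2 ^ J :=
  Nat.geomSum_lt le_rfl h

theorem enc_erase {s : Finset ℕ} {a : ℕ} (h : a ∈ s) :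
    Nat.sub (enc s) (Nat.shiftLeft 1 a) = enc (s.erase a) := by
  show enc s - 1 <<< a = _
  rw [Nat.one_shiftLeft, enc, ← Finset.add_sum_erase s _ h, Nat.add_sub_cancel_left]
  rfl

theorem enc_insert {s : Finset ℕ} {a : ℕ} (h : a ∉ s) :
    Nat.add (enc s) (Nat.shiftLeft 1 a) = enc (insert a s) := by
  show enc s + 1 <<< a = _
  rw [Nat.one_shiftLeft, enc, enc, Finset.sum_insert h, add_comm]

theorem enc_below {s : Finset ℕ} (a : ℕ) :
    Nat.mod (enc s) (Nat.shiftLeft 1 a) = enc (s.filter (· < a)) := by
  show enc s % (1 <<< a) = _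
  rw [Nat.one_shiftLeft, enc, ← Finset.sum_filter_add_sum_filter_not s (· < a)]
  have hdvd : 2 ^ a ∣ ∑ x ∈ s.filter (fun x => ¬x < a), 2 ^ x :=
    Finset.dvd_sum fun x hx => Nat.pow_dvd_pow 2 (by
      have := (mem_filter.1 hx).2
      omega)
  obtain ⟨c, hc⟩ := hdvd
  rw [hc, Nat.add_mul_mod_self_left,
    Nat.mod_eq_of_lt (Nat.geomSum_lt le_rfl fun x hx => (mem_filter.1 hx).2)]
  rfl

/-- The parity table is correct. -/
noncomputable def parCheck (T : Tab) : Bool :=
  allTo (Nat.shiftLeft 1 T.J) fun m =>
    Nat.beq (fld 1 T.par m) (Nat.mod (sumTo T.J fun a => when' (bit m a) 1) 2)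

theorem parB_enc {T : Tab} (h : parCheck T = true) {s : Finset ℕ} (hs : ∀ x ∈ s, x < T.J) (a : ℕ) :
    parB T (enc s) a = (s.filter (· < a)).card % 2 := by
  rw [parB, enc_below]
  set t := s.filter (· < a)
  have ht : ∀ x ∈ t, x < T.J := fun x hx => hs x (mem_filter.1 hx).1
  have h1 := allTo_eq h (enc t) (by show enc t < 1 <<< T.J; rw [Nat.one_shiftLeft]; exact enc_lt ht)
  rw [Nat.beq_eq] at h1
  rw [h1]
  show (sumTo T.J fun a => when' (bit (enc t) a) 1) % 2 = _
  congr 1
  rw [sumTo_eq]
  simp only [when', bit_enc, Bool.cond_decide]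
  rw [Finset.sum_ite_mem, Finset.inter_eq_right.2 (fun x hx => mem_range.2 (ht x hx))]
  simp

theorem fsign_parity (s : Finset ℕ) (a : ℕ) :
    fsign s a = if (s.filter (· < a)).card % 2 = 0 then 1 else -1 := by
  rw [fsign]
  split_ifs with h
  · exact Even.neg_one_pow (Nat.even_iff.2 h)
  · exact Odd.neg_one_pow (Nat.odd_iff.2 (by omega))

theorem signed_val (neg : Bool) {cn : ℕ} (h : cn < 2 ^ 32) :
    ((signed neg cn : ℕ) : ℝ) - 2147483648 =
      (if neg = true then -1 else 1) * ((cn : ℝ) - 2147483648) := by
  cases neg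
  · simp [signed]
  · show ((4294967296 - cn : ℕ) : ℝ) - 2147483648 = _
    rw [Nat.cast_sub (by norm_num at h; omega)]
    push_cast
    simp only [if_true]
    ring

/-- The vector on state codes of an amplitude. -/
noncomputable def codeVec (J : ℕ) (u : ℕ → Finset ℕ → ℝ) (x : ℕ) : ℝ :=
  u (Nat.shiftRight x J) ((range J).filter fun a => bit (Nat.mod x (Nat.shiftLeft 1 J)) a = true)

theorem code_split (i J m : ℕ) (hm : m < 2 ^ J) :
    Nat.shiftRight (Nat.add (Nat.shiftLeft i J) m) J = i ∧
      Nat.mod (Nat.add (Nat.shiftLeft i J) m) (Nat.shiftLeft 1 J) = m := by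
  show ((i <<< J) + m) >>> J = i ∧ ((i <<< J) + m) % (1 <<< J) = m
  rw [Nat.shiftLeft_eq, Nat.shiftRight_eq_div_pow, Nat.one_shiftLeft, mul_comm i]
  constructor
  · rw [Nat.mul_add_div (Nat.two_pow_pos J), Nat.div_eq_of_lt hm, add_zero]
  · rw [Nat.mul_add_mod, Nat.mod_eq_of_lt hm]

theorem codeVec_enc (J : ℕ) (u : ℕ → Finset ℕ → ℝ) (i : ℕ) {t : Finset ℕ} (ht : t ⊆ range J) :
    codeVec J u (Nat.add (Nat.shiftLeft i J) (enc t)) = u i t := by
  obtain ⟨h1, h2⟩ := code_split i J (enc t) (enc_lt fun a ha => mem_range.1 (ht ha))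
  rw [codeVec, h1, h2]
  congr 1
  ext a
  simp only [mem_filter, bit_enc, decide_eq_true_eq]
  exact ⟨fun h => h.2, fun h => ⟨ht h, h⟩⟩

theorem sum_masks (J : ℕ) (f : ℕ → ℝ) :
    ∑ m ∈ range (2 ^ J), f m = ∑ s ∈ (range J).powerset, f (enc s) := by
  have hinj : Set.InjOn enc ((range J).powerset : Set (Finset ℕ)) := fun s _ t _ h => by
    ext a
    have h' := congrArg (fun m => bit m a) h
    simp only [bit_enc] at h'
    exact decide_eq_decide.1 h'
  have himg : (range J).powerset.image enc = range (2 ^ J) := by
    refine Finset.eq_of_subset_of_card_le (fun m hm => ?_) ?_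
    · obtain ⟨s, hs, rfl⟩ := mem_image.1 hm
      exact mem_range.2 (enc_lt fun a ha => mem_range.1 (mem_powerset.1 hs ha))
    · rw [card_image_of_injOn hinj, card_powerset, card_range, card_range]
  rw [← himg, Finset.sum_image hinj]

/-- A state row in the sets. -/
theorem rowVal_enc {T : Tab} (hp : parCheck T = true) (u : ℕ → Finset ℕ → ℝ) {i : ℕ} (hi : i ≤ T.S)
    {s : Finset ℕ} (hs : s ⊆ range T.J) :
    rowVal T (Nat.add (Nat.shiftLeft i T.J) (enc s)) (codeVec T.J u) / scale =
      cR T i * u i s
      - (∑ a ∈ s, ∑ a' ∈ range T.J, ∑ i' ∈ range (T.S + 1),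
          if a' ∈ s.erase a then 0 else
            wR T i a i' a' * (fsign s a * fsign (insert a' (s.erase a)) a') *
              u i' (insert a' (s.erase a)))
      + ∑ a ∈ s, ∑ b ∈ s, ∑ a' ∈ range T.J, ∑ b' ∈ range T.J, ∑ i' ∈ range (T.S + 1),
          if a < b ∧ a' < b' ∧ a' ∉ (s.erase a).erase b ∧ b' ∉ (s.erase a).erase b then
            gR T i a b i' a' b' *
              (fsign s a * fsign (s.erase a) b * (fsign (insert a' (insert b' ((s.erase a).erase b))) a' *
                fsign (insert b' ((s.erase a).erase b)) b')) *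
              u i' (insert a' (insert b' ((s.erase a).erase b)))
          else 0 := by
  have hsJ : ∀ x ∈ s, x < T.J := fun x hx => mem_range.1 (hs hx)
  obtain ⟨h1, h2⟩ := code_split i T.J (enc s) (enc_lt hsJ)
  have hhead : ∀ (x : ℕ × ℕ) (l l' : List (ℕ × ℕ)) (f : ℕ × ℕ → ℝ),
      tsum' (x :: (l ++ l')) f = f x + (tsum' l f + tsum' l' f) := fun x l l' f => by
    simp [tsum', List.sum_append]
  rw [rowVal, stI, stM, h1, h2, rowTerms, hhead]
  simp only [hopTerms, pairTerms, tsum'_flatMap, tsum'_ite, tsum'_one, bit_enc, Bool.cond_decide]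
  have hconstr : ∀ (f : ℕ → ℝ) (t : Finset ℕ), t ⊆ range T.J →
      (∑ a ∈ range T.J, if a ∈ t then f a else 0) = ∑ a ∈ t, f a := fun f t ht => by
    rw [Finset.sum_ite_mem, Finset.inter_eq_right.2 ht]
  rw [hconstr _ s hs, hconstr _ s hs, add_div, add_div, sub_eq_add_neg, ← add_assoc]
  have hsc : scale ≠ 0 := by norm_num [scale]
  congr 1
  congr 1
  · rw [codeVec_enc _ _ _ hs, cR]
    ring
  · rw [← Finset.sum_neg_distrib, Finset.sum_div]
    refine Finset.sum_congr rfl fun a ha => ?_
    rw [← Finset.sum_neg_distrib, Finset.sum_div]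
    refine Finset.sum_congr rfl fun a' ha' => ?_
    rw [mem_range] at ha'
    simp only [enc_erase ha, bit_enc]
    by_cases hr : a' ∈ s.erase a
    · simp [hr]
    simp only [hr, if_false]
    by_cases hL : a' ≤ i + a ∧ i + a ≤ T.S + a'
    · have e : (!decide False && Nat.ble a' (Nat.add i a) &&
          Nat.ble (Nat.add i a) (Nat.add T.S a')) = true := by
        simp only [decide_false, Bool.not_false, Bool.true_and, Bool.and_eq_true, Nat.ble_eq]
        exact hL
      rw [e]
      simp only [cond_true]
      rw [Finset.sum_eq_single (i + a - a')]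
      · have hsub : insert a' (s.erase a) ⊆ range T.J :=
          Finset.insert_subset (mem_range.2 ha') ((erase_subset a s).trans hs)
        rw [enc_insert hr, show Nat.sub (Nat.add i a) a' = i + a - a' from rfl,
          codeVec_enc _ _ _ hsub, signed_val _ (fld_lt 32 _ _),
          parB_enc hp hsJ a, parB_enc hp (fun x hx => hsJ x (mem_of_mem_erase hx)) a',
          wR, if_pos (show i + a = i + a - a' + a' by omega), fsign_parity s a, fsign_parity (insert a' (s.erase a)) a',
          show (insert a' (s.erase a)).filter (· < a') = (s.erase a).filter (· < a') by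
            simp [Finset.filter_insert]]
        simp only [Nat.add_eq, Nat.mul_eq]
        show (if Nat.beq (((s.filter (· < a)).card % 2 + ((s.erase a).filter (· < a')).card % 2) % 2) 0 = true
          then (-1 : ℝ) else 1) * _ * _ / scale = _
        simp only [Nat.beq_eq]
        rcases Nat.mod_two_eq_zero_or_one (s.filter (· < a)).card with p1 | p1 <;>
          rcases Nat.mod_two_eq_zero_or_one ((s.erase a).filter (· < a')).card with p2 | p2 <;>
          simp [p1, p2] <;> ring
      · intro i' _ hne
        rw [wR, if_neg (by omega)]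
        simp
      · intro hn
        exact absurd (mem_range.2 (by omega)) hn
    · have e : (!decide False && Nat.ble a' (Nat.add i a) &&
          Nat.ble (Nat.add i a) (Nat.add T.S a')) = false := by
        rw [← Bool.not_eq_true]
        simp only [decide_false, Bool.not_false, Bool.true_and, Bool.and_eq_true, Nat.ble_eq]
        exact hL
      rw [e]
      simp only [cond_false, zero_div]
      symm
      rw [neg_eq_zero]
      refine Finset.sum_eq_zero fun i' hi' => ?_
      rw [mem_range] at hi'
      rw [wR, if_neg (by omega)]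
      simp
  · rw [Finset.sum_comm (s := s) (t := s) (f := fun a b => ∑ a' ∈ range T.J, ∑ b' ∈ range T.J,
      ∑ i' ∈ range (T.S + 1),
          if a < b ∧ a' < b' ∧ a' ∉ (s.erase a).erase b ∧ b' ∉ (s.erase a).erase b then
            gR T i a b i' a' b' *
              (fsign s a * fsign (s.erase a) b * (fsign (insert a' (insert b' ((s.erase a).erase b))) a' *
                fsign (insert b' ((s.erase a).erase b)) b')) *
              u i' (insert a' (insert b' ((s.erase a).erase b)))
          else 0), Finset.sum_div]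
    refine Finset.sum_congr rfl fun b hb => ?_
    simp only [enc_erase hb, bit_enc, Bool.cond_decide]
    rw [Finset.sum_div]
    have hleft : ∀ g : ℕ → ℝ, (∀ a ∈ s, b ≤ a → g a = 0) →
        ∑ a ∈ s, g a = ∑ a ∈ range b, if a ∈ s.erase b then g a else 0 := by
      intro g hg
      rw [Finset.sum_ite_mem]
      refine (Finset.sum_subset (fun a ha => ?_) fun a ha hn => hg a ha ?_).symm
      · exact mem_of_mem_erase (Finset.mem_inter.1 ha).2
      · by_contra hlt
        exact hn (Finset.mem_inter.2 ⟨mem_range.2 (by omega), mem_erase.2 ⟨by omega, ha⟩⟩)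
    rw [hleft _ (fun a _ hle => by
      refine Finset.sum_eq_zero fun a' _ => Finset.sum_eq_zero fun b' _ => Finset.sum_eq_zero fun i' _ => ?_
      rw [if_neg (by omega)])]
    refine Finset.sum_congr rfl fun a ha => ?_
    rw [mem_range] at ha
    by_cases hae : a ∈ s.erase b
    swap
    · simp [hae]
    rw [if_pos hae, if_pos hae, Finset.sum_div, Finset.sum_comm (s := range T.J) (t := range T.J)]
    refine Finset.sum_congr rfl fun b' hb' => ?_
    rw [mem_range] at hb'
    have has : a ∈ s := mem_of_mem_erase hae
    have hr : (s.erase b).erase a = (s.erase a).erase b := Finset.erase_right_comm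
    simp only [enc_erase hae, bit_enc, hr]
    set r := (s.erase a).erase b
    have hrs : ∀ x ∈ r, x < T.J := fun x hx => hsJ x (mem_of_mem_erase (mem_of_mem_erase hx))
    have hright : ∀ g : ℕ → ℝ, (∀ a' ∈ range T.J, b' ≤ a' → g a' = 0) →
        ∑ a' ∈ range T.J, g a' = ∑ a' ∈ range b', g a' := by
      intro g hg
      refine (Finset.sum_subset (Finset.range_subset_range.2 hb'.le) fun a' ha' hn => hg a' ha' ?_).symm
      simpa using hn
    rw [hright _ (fun a' _ hle => by
      refine Finset.sum_eq_zero fun i' _ => ?_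
      rw [if_neg (by omega)])]
    by_cases hbr : b' ∈ r
    · simp [hbr]
    by_cases hbL : b' ≤ i + a + b
    swap
    · have e : (!decide (b' ∈ r) && Nat.ble b' (Nat.add (Nat.add i a) b)) = false := by
        rw [← Bool.not_eq_true]
        simp only [hbr, decide_false, Bool.not_false, Bool.true_and, Nat.ble_eq]
        exact hbL
      rw [e]
      simp only [cond_false, zero_div]
      symm
      refine Finset.sum_eq_zero fun a' ha' => Finset.sum_eq_zero fun i' _ => ?_
      split_ifs
      · rw [gR, if_neg (by omega)]; simp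
      · rfl
    have e : (!decide (b' ∈ r) && Nat.ble b' (Nat.add (Nat.add i a) b)) = true := by
      simp only [hbr, decide_false, Bool.not_false, Bool.true_and, Nat.ble_eq]
      exact hbL
    rw [e]
    simp only [cond_true]
    rw [Finset.sum_div]
    refine Finset.sum_congr rfl fun a' ha' => ?_
    rw [mem_range] at ha'
    by_cases har : a' ∈ r
    · simp [har]
    by_cases hL : a' + b' ≤ i + a + b ∧ i + a + b ≤ T.S + (a' + b')
    swap
    · have e2 : (!decide (a' ∈ r) && Nat.ble (Nat.add a' b') (Nat.add (Nat.add i a) b) &&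
          Nat.ble (Nat.add (Nat.add i a) b) (Nat.add T.S (Nat.add a' b'))) = false := by
        rw [← Bool.not_eq_true]
        simp only [har, decide_false, Bool.not_false, Bool.true_and, Bool.and_eq_true, Nat.ble_eq]
        exact hL
      rw [e2]
      simp only [cond_false, zero_div]
      symm
      refine Finset.sum_eq_zero fun i' hi' => ?_
      rw [mem_range] at hi'
      split_ifs
      · rw [gR, if_neg (by omega)]; simp
      · rfl
    have e2 : (!decide (a' ∈ r) && Nat.ble (Nat.add a' b') (Nat.add (Nat.add i a) b) &&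
        Nat.ble (Nat.add (Nat.add i a) b) (Nat.add T.S (Nat.add a' b'))) = true := by
      simp only [har, decide_false, Bool.not_false, Bool.true_and, Bool.and_eq_true, Nat.ble_eq]
      exact hL
    rw [e2]
    simp only [cond_true]
    rw [Finset.sum_eq_single (i + a + b - (a' + b'))]
    · have hab' : a' ∉ insert b' r := by
        simp only [mem_insert, not_or]
        exact ⟨by omega, har⟩
      have hsub : insert a' (insert b' r) ⊆ range T.J :=
        Finset.insert_subset (mem_range.2 (by omega))
          (Finset.insert_subset (mem_range.2 hb') fun x hx => mem_range.2 (hrs x hx))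
      have hins : ∀ x ∈ insert b' r, x < T.J := by
        intro x hx
        rcases mem_insert.1 hx with h | h
        · omega
        · exact hrs x h
      rw [if_pos ⟨by omega, by omega, har, hbr⟩, enc_insert hbr, enc_insert hab',
        show Nat.sub (Nat.add (Nat.add i a) b) (Nat.add a' b') = i + a + b - (a' + b') from rfl,
        codeVec_enc _ _ _ hsub, signed_val _ (fld_lt 32 _ _),
        parB_enc hp hsJ a, parB_enc hp (fun x hx => hsJ x (mem_of_mem_erase hx)) b,
        parB_enc hp hins a', parB_enc hp hrs b',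
        gR, if_pos (show i + a + b = i + a + b - (a' + b') + a' + b' by omega), fsign_parity s a, fsign_parity (s.erase a) b,
        fsign_parity (insert a' (insert b' r)) a', fsign_parity (insert b' r) b',
        show (insert a' (insert b' r)).filter (· < a') = (insert b' r).filter (· < a') by
          simp [Finset.filter_insert],
        show (insert b' r).filter (· < b') = r.filter (· < b') by simp [Finset.filter_insert],
        show (s.erase b).filter (· < b) = s.filter (· < b) by
          ext x; simp only [mem_filter, mem_erase]; constructor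
          · exact fun h => ⟨h.1.2, h.2⟩
          · exact fun h => ⟨⟨ne_of_lt h.2, h.1⟩, h.2⟩]
      simp only [Nat.add_eq, Nat.mul_eq]
      have hb2 : ((s.erase a).filter (· < b)).card + 1 = (s.filter (· < b)).card := by
        rw [Finset.filter_erase, Finset.card_erase_add_one (mem_filter.2 ⟨has, ha⟩)]
      show (if Nat.beq (((s.filter (· < a)).card % 2 + (s.filter (· < b)).card % 2 +
          (((insert b' r).filter (· < a')).card % 2 + (r.filter (· < b')).card % 2)) % 2) 0 = true
        then (-1 : ℝ) else 1) * _ * _ / scale = _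
      rw [← hb2]
      simp only [Nat.beq_eq]
      rcases Nat.mod_two_eq_zero_or_one (s.filter (· < a)).card with p1 | p1 <;>
        rcases Nat.mod_two_eq_zero_or_one ((s.erase a).filter (· < b)).card with p2 | p2 <;>
        rcases Nat.mod_two_eq_zero_or_one ((insert b' r).filter (· < a')).card with p3 | p3 <;>
        rcases Nat.mod_two_eq_zero_or_one (r.filter (· < b')).card with p4 | p4 <;>
        simp [p1, p2, p3, p4, Nat.add_mod] <;> ring
    · intro i' _ hne
      split_ifs
      · rw [gR, if_neg (by omega)]; simp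
      · rfl
    · intro hn
      exact absurd (mem_range.2 (by omega)) hn

/-- The window form is the sum of the rows. -/
theorem winForm_rows {T : Tab} (hp : parCheck T = true) (u : ℕ → Finset ℕ → ℝ) :
    winForm T.S T.J (cR T) (wR T) (gR T) u =
      (∑ i ∈ range (T.S + 1), ∑ m ∈ range (2 ^ T.J), codeVec T.J u (Nat.add (Nat.shiftLeft i T.J) m) *
        rowVal T (Nat.add (Nat.shiftLeft i T.J) m) (codeVec T.J u)) / scale := by
  rw [Finset.sum_div]
  simp only [sum_masks]
  have key : ∀ i ∈ range (T.S + 1), ∀ s ∈ (range T.J).powerset,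
      codeVec T.J u (Nat.add (Nat.shiftLeft i T.J) (enc s)) *
        rowVal T (Nat.add (Nat.shiftLeft i T.J) (enc s)) (codeVec T.J u) / scale =
      u i s * (rowVal T (Nat.add (Nat.shiftLeft i T.J) (enc s)) (codeVec T.J u) / scale) := by
    intro i _ s hs
    rw [codeVec_enc _ _ _ (mem_powerset.1 hs), mul_div_assoc]
  simp only [Finset.sum_div]
  rw [Finset.sum_congr rfl fun i hi => Finset.sum_congr rfl fun s hs => by
    rw [key i hi s hs, rowVal_enc hp u (Nat.lt_succ_iff.1 (mem_range.1 hi)) (mem_powerset.1 hs)]]
  simp only [mul_add, mul_sub, Finset.sum_add_distrib, Finset.sum_sub_distrib, Finset.mul_sum]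
  unfold winForm
  congr 1
  · congr 1
    · exact Finset.sum_congr rfl fun i _ => Finset.sum_congr rfl fun s _ => by ring
    · refine Finset.sum_congr rfl fun i _ => ?_
      rw [Finset.sum_comm]
      refine Finset.sum_congr rfl fun s _ => ?_
      rw [Finset.sum_comm]
      refine Finset.sum_congr rfl fun a _ => ?_
      rw [Finset.sum_comm]
      refine Finset.sum_congr rfl fun a' _ => Finset.sum_congr rfl fun i' _ => ?_
      split_ifs <;> ring
  · refine Finset.sum_congr rfl fun i _ => ?_
    rw [Finset.sum_comm]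
    refine Finset.sum_congr rfl fun s _ => ?_
    rw [Finset.sum_comm]
    refine Finset.sum_congr rfl fun a _ => ?_
    rw [Finset.sum_comm]
    refine Finset.sum_congr rfl fun b _ => ?_
    rw [Finset.sum_comm]
    refine Finset.sum_congr rfl fun a' _ => ?_
    rw [Finset.sum_comm]
    refine Finset.sum_congr rfl fun b' _ => Finset.sum_congr rfl fun i' _ => ?_
    split_ifs <;> ring

end Vale.Agent.P359.Fast
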