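import Vale.Agent.P359.FastCert.AmpSound
import Vale.Agent.P359.LimDefs

/-!
The integer channel budget implies the channel condition of a window certificate.
-/

namespace Vale.Agent.P359.Fast

open Finset

theorem sum_shift (S J i : ℕ) (hi : i ≤ S) (g : ℕ → ℝ) :
    ∑ a ∈ range J, g (i + a) = ∑ L ∈ range (S + J), if i ≤ L ∧ L - i < J then g L else 0 := by
  rw [← Finset.sum_filter]
  refine Finset.sum_nbij' (fun a => i + a) (fun L => L - i) ?_ ?_ ?_ ?_ ?_
  · intro a ha; simp at ha ⊢; omega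
  · intro L hL; simp at hL ⊢; omega
  · intro a _; simp
  · intro L hL; simp at hL ⊢; omega
  · intro a _; rfl

/-- A one-fermion sum by levels. -/
theorem sum_levels (S J k : ℕ) (F : ℕ → ℕ → ℕ → ℝ) :
    (∑ i ∈ range (S + 1), ∑ a ∈ range J, ∑ i' ∈ range (S + 1), ∑ a' ∈ range J,
      if i + a = i' + a' ∧ k ≤ i + a then F (i + a) i i' else 0) =
    ∑ L ∈ range (S + J), if k ≤ L then
      ∑ i ∈ range (S + 1), if i ≤ L ∧ L - i < J then
        ∑ i' ∈ range (S + 1), (if i' ≤ L ∧ L - i' < J then F L i i' else 0) else 0 else 0 := by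
  have h1 : ∀ i a i', (∑ a' ∈ range J, if i + a = i' + a' ∧ k ≤ i + a then F (i + a) i i' else 0) =
      if k ≤ i + a then (if i' ≤ i + a ∧ i + a - i' < J then F (i + a) i i' else 0) else 0 := by
    intro i a i'
    by_cases hk : k ≤ i + a
    · simp only [hk, and_true, if_true]
      by_cases h : i' ≤ i + a ∧ i + a - i' < J
      · rw [if_pos h, Finset.sum_eq_single (i + a - i')]
        · rw [if_pos (by omega)]
        · intro b _ hb; rw [if_neg (by omega)]
        · intro hn; exact absurd (mem_range.2 h.2) hn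
      · rw [if_neg h]
        refine Finset.sum_eq_zero fun b hb => ?_
        rw [mem_range] at hb
        rw [if_neg (by omega)]
    · simp [hk]
  simp only [h1]
  rw [Finset.sum_congr rfl fun i hi => sum_shift S J i (Nat.lt_succ_iff.1 (mem_range.1 hi))
    (fun L => ∑ i' ∈ range (S + 1),
      if k ≤ L then (if i' ≤ L ∧ L - i' < J then F L i i' else 0) else 0), Finset.sum_comm]
  refine Finset.sum_congr rfl fun L _ => ?_
  by_cases hk : k ≤ L <;> simp [hk]

theorem cond_and {α : Type} (i L J : ℕ) (x y : α) :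
    cond (Nat.ble i L && Nat.blt (Nat.sub L i) J) x y = if i ≤ L ∧ L - i < J then x else y := by
  by_cases h : i ≤ L ∧ L - i < J
  · rw [if_pos h, show (Nat.ble i L && Nat.blt (Nat.sub L i) J) = true by
      rw [Bool.and_eq_true, Nat.ble_eq, Nat.blt_eq]; exact h]
    rfl
  · rw [if_neg h, show (Nat.ble i L && Nat.blt (Nat.sub L i) J) = false by
      rw [← Bool.not_eq_true, Bool.and_eq_true, Nat.ble_eq, Nat.blt_eq]; exact h]
    rfl

theorem cond_ble {α : Type} (k L : ℕ) (x y : α) :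
    cond (Nat.ble k L) x y = if k ≤ L then x else y := by
  by_cases h : k ≤ L
  · rw [if_pos h, show Nat.ble k L = true from Nat.ble_eq.mpr h]
    rfl
  · rw [if_neg h, show Nat.ble k L = false by rw [← Bool.not_eq_true, Nat.ble_eq]; exact h]
    rfl

/-- The unit `2 ^ 84` of the coverage checks. -/
noncomputable def unit84 : ℝ := 19342813113834066795298816

theorem wTarget_eq {k : ℕ} (hk : 1 ≤ k) (hk' : k ≤ 83) :
    (wTarget k : ℝ) = 3 / 2 * wLim k * unit84 := by
  have hc : ((cond (Nat.beq (Nat.mod k 2) 1) (1 : ℤ) (-1) : ℤ) : ℝ) = (-1) ^ (k - 1) := by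
    by_cases h : k % 2 = 1
    · rw [show Nat.beq (Nat.mod k 2) 1 = true by rw [Nat.beq_eq]; exact h,
        Even.neg_one_pow (Nat.even_iff.2 (show (k - 1) % 2 = 0 by omega))]
      simp
    · rw [show Nat.beq (Nat.mod k 2) 1 = false by rw [← Bool.not_eq_true, Nat.beq_eq]; exact h,
        Odd.neg_one_pow (Nat.odd_iff.2 (show (k - 1) % 2 = 1 by omega))]
      simp
  have hp : (2 : ℝ) ^ (83 - k) * (2 : ℝ) ^ (k - 1) * 4 = unit84 := by
    rw [← pow_add, show 83 - k + (k - 1) = 82 by omega, unit84]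
    norm_num
  show (((cond (Nat.beq (Nat.mod k 2) 1) (1 : ℤ) (-1)) *
    ((3 * (3 * k - 1) * 2 ^ (83 - k) : ℕ) : ℤ) : ℤ) : ℝ) = _
  rw [Int.cast_mul, hc, Int.cast_natCast]
  push_cast [Nat.cast_sub (show 1 ≤ 3 * k by omega)]
  rw [wLim, ← hp, div_pow]
  field_simp
  ring

theorem amp_pair {x y : ℝ} {p q : ℝ} (hx : |x * 1073741824 - p| ≤ 1)
    (hy : |y * 1073741824 - q| ≤ 1) (hp : |p| ≤ 1073741825) (hq : |q| ≤ 1073741825) :
    |x * y * 1152921504606846976 - p * q| ≤ 3221225472 := by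
  have e : x * y * 1152921504606846976 - p * q =
      (x * 1073741824 - p) * q + p * (y * 1073741824 - q) +
        (x * 1073741824 - p) * (y * 1073741824 - q) := by ring
  have h1 : |(x * 1073741824 - p) * q| ≤ 1 * 1073741825 := by
    rw [abs_mul]; exact mul_le_mul hx hq (abs_nonneg _) zero_le_one
  have h2 : |p * (y * 1073741824 - q)| ≤ 1073741825 * 1 := by
    rw [abs_mul]; exact mul_le_mul hp hy (abs_nonneg _) (by norm_num)
  have h3 : |(x * 1073741824 - p) * (y * 1073741824 - q)| ≤ 1 * 1 := by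
    rw [abs_mul]; exact mul_le_mul hx hy (abs_nonneg _) zero_le_one
  rw [abs_le] at h1 h2 h3 ⊢
  rw [e]
  constructor <;> linarith

theorem cov1_near {T : Tab} {V : CovTab} (hf : facCheck V = true) {N : ℕ} (hN : N ≤ 24)
    (hSJ : T.S + T.J ≤ N) (h21 : ampCheck V 2 1 V.v21 N = true) (k : ℕ) :
    |cov1Lim T.S T.J (wR T) k * unit84 - (cov1S T V k : ℝ)| ≤ 3221225472 * (cov1E T k : ℝ) := by
  have e1 : cov1Lim T.S T.J (wR T) k = ∑ L ∈ range (T.S + T.J), if k ≤ L then
      ∑ i ∈ range (T.S + 1), if i ≤ L ∧ L - i < T.J then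
        ∑ i' ∈ range (T.S + 1), (if i' ≤ L ∧ L - i' < T.J then
          (wInt T L i i' : ℝ) / scale *
            (coupLim 2 1 k L i (L - i) * coupLim 2 1 k L i' (L - i')) else 0) else 0 else 0 := by
    rw [← sum_levels]
    rw [cov1Lim]
    refine Finset.sum_congr rfl fun i _ => Finset.sum_congr rfl fun a _ =>
      Finset.sum_congr rfl fun i' _ => Finset.sum_congr rfl fun a' _ => ?_
    by_cases h : i + a = i' + a' ∧ k ≤ i + a
    · rw [if_pos h, if_pos h, wR, if_pos h.1, show i + a - i = a by omega,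
        show i + a - i' = a' by omega]
      show _ = (((fld 32 T.W (((i + a) * (T.S + 1) + i) * (T.S + 1) + i') : ℤ) - 2147483648 : ℤ) : ℝ) /
        scale * _
      push_cast
      rfl
    · rw [if_neg h, if_neg h]
  have e2 : (cov1S T V k : ℝ) = ∑ L ∈ range (T.S + T.J), if k ≤ L then
      ∑ i ∈ range (T.S + 1), if i ≤ L ∧ L - i < T.J then
        ∑ i' ∈ range (T.S + 1), (if i' ≤ L ∧ L - i' < T.J then
          (wInt T L i i' : ℝ) * ((amp V.v21 k L i : ℝ) * (amp V.v21 k L i' : ℝ)) else 0) else 0 else 0 := by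
    simp only [cov1S, sumZ_eq, cond_ble, cond_and]
    show ((∑ L ∈ range (T.S + T.J), _ : ℤ) : ℝ) = _
    rw [Int.cast_sum]
    refine Finset.sum_congr rfl fun L _ => ?_
    split_ifs
    · rw [Int.cast_sum]
      refine Finset.sum_congr rfl fun i _ => ?_
      split_ifs
      · rw [Int.cast_sum]
        refine Finset.sum_congr rfl fun i' _ => ?_
        split_ifs
        · show (((wInt T L i i') * ((amp V.v21 k L i) * (amp V.v21 k L i')) : ℤ) : ℝ) = _
          push_cast
          rfl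
        · simp
      · simp
    · simp
  have e3 : (cov1E T k : ℝ) = ∑ L ∈ range (T.S + T.J), if k ≤ L then
      ∑ i ∈ range (T.S + 1), if i ≤ L ∧ L - i < T.J then
        ∑ i' ∈ range (T.S + 1), (if i' ≤ L ∧ L - i' < T.J then
          |(wInt T L i i' : ℝ)| else 0) else 0 else 0 := by
    simp only [cov1E, sumTo_eq, cond_ble, cond_and]
    show ((∑ L ∈ range (T.S + T.J), _ : ℕ) : ℝ) = _
    simp only [Nat.cast_sum, Nat.cast_ite, Nat.cast_zero, Nat.cast_natAbs, Int.cast_abs]
  rw [e1, e2, e3, Finset.sum_mul, ← Finset.sum_sub_distrib, Finset.mul_sum]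
  refine (abs_sum_le_sum_abs _ _).trans (Finset.sum_le_sum fun L hL => ?_)
  rw [mem_range] at hL
  split_ifs with hk
  swap
  · simp
  rw [Finset.sum_mul, ← Finset.sum_sub_distrib, Finset.mul_sum]
  refine (abs_sum_le_sum_abs _ _).trans (Finset.sum_le_sum fun i _ => ?_)
  split_ifs with hi
  swap
  · simp
  rw [Finset.sum_mul, ← Finset.sum_sub_distrib, Finset.mul_sum]
  refine (abs_sum_le_sum_abs _ _).trans (Finset.sum_le_sum fun i' _ => ?_)
  split_ifs with hi'
  swap
  · simp
  obtain ⟨a1, -, a3⟩ := amp_near hf (by norm_num : 0 < 2) (by norm_num : 0 < 1) hN h21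
    (show L < N by omega) hk hi.1
  obtain ⟨b1, -, b3⟩ := amp_near hf (by norm_num : 0 < 2) (by norm_num : 0 < 1) hN h21
    (show L < N by omega) hk hi'.1
  push_cast at a1 b1
  have hp := amp_pair a1 b1 a3 b3
  set W := (wInt T L i i' : ℝ)
  set x := coupLim 2 1 k L i (L - i)
  set y := coupLim 2 1 k L i' (L - i')
  rw [show W / scale * (x * y) * unit84 - W * ((amp V.v21 k L i : ℝ) * (amp V.v21 k L i' : ℝ)) =
      W * (x * y * 1152921504606846976 - (amp V.v21 k L i : ℝ) * (amp V.v21 k L i' : ℝ)) by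
    rw [scale, unit84]; ring, abs_mul, mul_comm (3221225472 : ℝ)]
  exact mul_le_mul_of_nonneg_left hp (abs_nonneg _)

/-- The checked budget gives the channel condition. -/
theorem cov1_of_check {T : Tab} {V : CovTab} (hf : facCheck V = true) {N : ℕ} (hN : N ≤ 24)
    (hSJ : T.S + T.J ≤ N) (h21 : ampCheck V 2 1 V.v21 N = true) (h : cov1Check T V = true) :
    (∑ i ∈ range (T.S + 1), cR T i) +
        (∑ k ∈ range 30 \ {0, 1, 3},
          ((k : ℝ) + 1) * max 0 (3 / 2 * wLim k - cov1Lim T.S T.J (wR T) k)) ≤ 999 / 1000 := by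
  have hU : (0 : ℝ) < unit84 := by norm_num [unit84]
  rw [cov1Check, decide_eq_true_iff, sumZ_eq, sumTo_eq] at h
  have key : ∀ (A : ℤ) (B : ℕ), 1000 * (A + Int.ofNat B) ≤ 999 * 19342813113834066795298816 →
      (1000 : ℝ) * (A : ℝ) + 1000 * (B : ℝ) ≤ 999 * unit84 := by
    intro A B hAB
    have h2 := (Int.cast_le (R := ℝ)).2 hAB
    rw [Int.cast_mul, Int.cast_mul, Int.cast_add, mul_add, Int.ofNat_eq_natCast, Int.cast_natCast,
      Int.cast_ofNat, Int.cast_ofNat, Int.cast_ofNat] at h2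
    rw [unit84]
    exact h2
  have h' := key _ _ h
  have hC : ((∑ i ∈ range (Nat.add T.S 1),
        (Int.ofNat (fld 32 T.C i) - 2147483648) * 1152921504606846976 : ℤ) : ℝ) =
      (∑ i ∈ range (T.S + 1), cR T i) * unit84 := by
    rw [Int.cast_sum, Finset.sum_mul]
    refine Finset.sum_congr rfl fun i _ => ?_
    rw [Int.cast_mul, Int.cast_sub, Int.ofNat_eq_natCast, Int.cast_natCast, Int.cast_ofNat,
      Int.cast_ofNat]
    rw [cR, scale, unit84]
    ring
  have hD : (∑ k ∈ range 30 \ {0, 1, 3},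
        ((k : ℝ) + 1) * max 0 (3 / 2 * wLim k - cov1Lim T.S T.J (wR T) k)) * unit84 ≤
      ((∑ k ∈ range 30, cond (Nat.beq k 0 || Nat.beq k 1 || Nat.beq k 3) 0
        (Nat.mul (Nat.add k 1) (defectS T V k)) : ℕ) : ℝ) := by
    rw [Finset.sum_mul, Nat.cast_sum]
    refine le_trans (Finset.sum_le_sum fun k hk => ?_)
      (Finset.sum_le_sum_of_subset_of_nonneg (Finset.sdiff_subset (t := {0, 1, 3}))
        fun k _ _ => Nat.cast_nonneg _)
    simp only [mem_sdiff, mem_range, mem_insert, mem_singleton, not_or] at hk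
    obtain ⟨hk30, hk0, hk1, hk3⟩ := hk
    rw [show (Nat.beq k 0 || Nat.beq k 1 || Nat.beq k 3) = false by
      rw [← Bool.not_eq_true]; simp only [Bool.or_eq_true, Nat.beq_eq]; omega]
    show _ ≤ (((k + 1) * defectS T V k : ℕ) : ℝ)
    push_cast
    rw [mul_assoc]
    refine mul_le_mul_of_nonneg_left ?_ (by positivity)
    rw [max_mul_of_nonneg _ _ hU.le, zero_mul, sub_mul, ← wTarget_eq (by omega) (by omega)]
    refine max_le (Nat.cast_nonneg _) ?_
    have hnear := abs_le.1 (cov1_near hf hN hSJ h21 k)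
    set d : ℤ := wTarget k - cov1S T V k + 3221225472 * (cov1E T k : ℤ) with hd
    have hle : d ≤ (defectS T V k : ℤ) := Int.self_le_toNat d
    have hle' : (d : ℝ) ≤ (defectS T V k : ℝ) := by exact_mod_cast hle
    rw [hd] at hle'
    push_cast at hle'
    linarith [hnear.1]
  rw [hC] at h'
  push_cast at h' hD ⊢
  rw [← mul_le_mul_iff_of_pos_right hU, add_mul]
  linarith

end Vale.Agent.P359.Fast
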