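import Vale.Agent.P359.FastCert.Cov1Sound

/-!
The integer coverage check of a block implies the two-fermion condition of a window certificate.
-/

namespace Vale.Agent.P359.Fast

open Finset

/-- Window pairs at level `U`, by impurity level and lower orbital. -/
noncomputable def win (T : Tab) (U : ℕ) : Finset (ℕ × ℕ) :=
  (range (T.S + 1) ×ˢ range T.J).filter fun p => inWin T U p.1 p.2 = true

theorem sum_win {M : Type} [AddCommMonoid M] (T : Tab) (U : ℕ) (f : ℕ → ℕ → M) :
    (∑ i ∈ range (Nat.add T.S 1), ∑ a ∈ range T.J, cond (inWin T U i a) (f i a) 0) =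
      ∑ p ∈ win T U, f p.1 p.2 := by
  rw [win, Finset.sum_filter, Finset.sum_product]
  refine Finset.sum_congr rfl fun i _ => Finset.sum_congr rfl fun a _ => ?_
  cases h : inWin T U i a <;> simp [h]

theorem inWin_iff (T : Tab) (U i a : ℕ) :
    inWin T U i a = true ↔ i + a ≤ U ∧ a < U - i - a ∧ U - i - a < T.J := by
  rw [inWin, Bool.and_eq_true, Bool.and_eq_true, Nat.ble_eq, Nat.blt_eq, Nat.blt_eq, and_assoc]
  exact Iff.rfl

theorem mem_win {T : Tab} {U : ℕ} {p : ℕ × ℕ} (h : p ∈ win T U) :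
    p.1 ≤ T.S ∧ p.1 + p.2 ≤ U ∧ p.2 < U - p.1 - p.2 ∧ U - p.1 - p.2 < T.J := by
  simp only [win, mem_filter, mem_product, mem_range, inWin_iff] at h
  omega

theorem sum_triples (T : Tab) (H : ℕ → ℕ → ℕ → ℝ) :
    (∑ i ∈ range (T.S + 1), ∑ a ∈ range T.J, ∑ b ∈ range T.J,
      if a < b then H (i + a + b) i a else 0) =
    ∑ U ∈ range (T.S + 2 * T.J), ∑ p ∈ win T U, H U p.1 p.2 := by
  rw [Finset.sum_congr rfl fun U (_ : U ∈ range (T.S + 2 * T.J)) =>
    (sum_win T U (fun i a => H U i a)).symm]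
  show _ = ∑ U ∈ range (T.S + 2 * T.J), ∑ i ∈ range (T.S + 1), ∑ a ∈ range T.J,
    cond (inWin T U i a) (H U i a) 0
  rw [Finset.sum_comm (s := range (T.S + 2 * T.J))]
  refine Finset.sum_congr rfl fun i hi => ?_
  rw [mem_range] at hi
  rw [Finset.sum_comm (s := range (T.S + 2 * T.J))]
  refine Finset.sum_congr rfl fun a ha => ?_
  rw [mem_range] at ha
  have hc : ∀ U, cond (inWin T U i a) (H U i a) 0 =
      if i + a ≤ U ∧ a < U - i - a ∧ U - i - a < T.J then H U i a else 0 := by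
    intro U
    by_cases h : i + a ≤ U ∧ a < U - i - a ∧ U - i - a < T.J
    · rw [if_pos h, (inWin_iff T U i a).2 h]; rfl
    · rw [if_neg h, show inWin T U i a = false by rw [← Bool.not_eq_true, inWin_iff]; exact h]; rfl
  simp only [hc]
  rw [← Finset.sum_filter, ← Finset.sum_filter]
  refine Finset.sum_nbij' (fun b => i + a + b) (fun U => U - i - a) ?_ ?_ ?_ ?_ ?_
  · intro b hb; simp at hb ⊢; omega
  · intro U hU; simp at hU ⊢; omega
  · intro b hb; simp at hb ⊢; omega
  · intro U hU; simp at hU ⊢; omega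
  · intro b _; rfl

/-- The table entry of two window pairs at one level. -/
noncomputable def gI (T : Tab) (U : ℕ) (p q : ℕ × ℕ) : ℤ :=
  (fld 32 (fld (32 * T.K) (T.G U) (gIdx T p.1 p.2 (U - p.1 - p.2))) (gIdx T q.1 q.2 (U - q.1 - q.2)) : ℤ) -
    2147483648

theorem cov2Lim_levels (T : Tab) (L m m' : ℕ) :
    cov2Lim T.S T.J (gR T) L m m' = ∑ U ∈ range (T.S + 2 * T.J), if L ≤ U then
      ∑ p ∈ win T U, ∑ q ∈ win T U, (gI T U p q : ℝ) / scale *
        (pairLim L m p.1 p.2 (U - p.1 - p.2) * pairLim L m' q.1 q.2 (U - q.1 - q.2)) else 0 := by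
  have h1 : cov2Lim T.S T.J (gR T) L m m' = ∑ i ∈ range (T.S + 1), ∑ a ∈ range T.J, ∑ b ∈ range T.J,
      if a < b then ∑ U' ∈ range (T.S + 2 * T.J), ∑ q ∈ win T U',
        (if i + a + b = U' then (gI T U' (i, a) q : ℝ) / scale *
          (pairLim L m i a (U' - i - a) * pairLim L m' q.1 q.2 (U' - q.1 - q.2)) else 0) else 0 := by
    rw [cov2Lim]
    refine Finset.sum_congr rfl fun i _ => Finset.sum_congr rfl fun a _ =>
      Finset.sum_congr rfl fun b _ => ?_
    by_cases hab : a < b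
    · rw [if_pos hab, ← sum_triples T (fun U' i' a' => if i + a + b = U' then
        (gI T U' (i, a) (i', a') : ℝ) / scale *
          (pairLim L m i a (U' - i - a) * pairLim L m' i' a' (U' - i' - a')) else 0)]
      refine Finset.sum_congr rfl fun i' _ => Finset.sum_congr rfl fun a' _ =>
        Finset.sum_congr rfl fun b' _ => ?_
      by_cases hab' : a' < b'
      · rw [if_pos hab']
        by_cases he : i + a + b = i' + a' + b'
        · rw [if_pos ⟨hab, hab', he⟩, if_pos he, gR, if_pos he, gI]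
          show _ = (((fld 32 (fld (32 * T.K) (T.G (i' + a' + b'))
            (gIdx T i a (i' + a' + b' - i - a))) (gIdx T i' a' (i' + a' + b' - i' - a')) : ℤ) -
              2147483648 : ℤ) : ℝ) / scale * _
          rw [show i' + a' + b' - i - a = b by omega, show i' + a' + b' - i' - a' = b' by omega,
            ← he]
          push_cast
          rfl
        · rw [if_neg (fun h => he h.2.2), if_neg he]
      · rw [if_neg hab', if_neg (fun h => hab' h.2.1)]
    · rw [if_neg hab]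
      refine Finset.sum_eq_zero fun i' _ => Finset.sum_eq_zero fun a' _ =>
        Finset.sum_eq_zero fun b' _ => ?_
      rw [if_neg (fun h => hab h.1)]
  rw [h1, sum_triples T (fun U i a => ∑ U' ∈ range (T.S + 2 * T.J), ∑ q ∈ win T U',
    (if U = U' then (gI T U' (i, a) q : ℝ) / scale *
      (pairLim L m i a (U' - i - a) * pairLim L m' q.1 q.2 (U' - q.1 - q.2)) else 0))]
  refine Finset.sum_congr rfl fun U hU => ?_
  split_ifs with hL
  · refine Finset.sum_congr rfl fun p hp => ?_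
    rw [Finset.sum_eq_single U]
    · exact Finset.sum_congr rfl fun q _ => by rw [if_pos rfl]
    · intro U' _ hne
      exact Finset.sum_eq_zero fun q _ => by rw [if_neg (Ne.symm hne)]
    · intro hn; exact absurd hU hn
  · refine Finset.sum_eq_zero fun p hp => Finset.sum_eq_zero fun U' _ =>
      Finset.sum_eq_zero fun q _ => ?_
    split_ifs with he
    · subst he
      have := mem_win hp
      rw [pairLim, if_neg (by omega), zero_mul, mul_zero]
    · rfl

theorem pamp_near {V : CovTab} (hf : facCheck V = true) (h22 : ampCheck V 2 2 V.v22 23 = true)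
    (h11 : ampCheck V 1 1 V.v11 17 = true) (L j : ℕ) {i a b : ℕ} (hi : i ≤ 7) (hab : a < b)
    (hb : b < 9) :
    |pairLim L (2 * j + 1) i a b * 1073741824 - (pamp V L (2 * j + 1) i a b : ℝ)| ≤ 4 ∧
      |pairLim L (2 * j + 1) i a b| ≤ 1 ∧
      |(pamp V L (2 * j + 1) i a b : ℝ)| ≤ 1073741828 := by
  set m := 2 * j + 1 with hm
  by_cases h : m ≤ L ∧ m ≤ a + b ∧ L ≤ i + a + b
  · have e : (Nat.ble m L && Nat.ble m (Nat.add a b) && Nat.ble L (Nat.add (Nat.add i a) b)) = true := by
      rw [Bool.and_eq_true, Bool.and_eq_true, Nat.ble_eq, Nat.ble_eq, Nat.ble_eq]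
      exact ⟨⟨h.1, h.2.1⟩, h.2.2⟩
    obtain ⟨x1, x2, x3⟩ := amp_near hf (by norm_num : 0 < 2) (by norm_num : 0 < 2) (by norm_num)
      h22 (show i + a + b - m < 23 by omega) (show L - m ≤ i + a + b - m by omega)
      (show i ≤ i + a + b - m by omega)
    obtain ⟨y1, y2, y3⟩ := amp_near hf (by norm_num : 0 < 1) (by norm_num : 0 < 1) (by norm_num)
      h11 (show a + b < 17 by omega) h.2.1 (show a ≤ a + b by omega)
    rw [show i + a + b - m - i = a + b - m by omega] at x1 x2
    rw [show a + b - a = b by omega] at y1 y2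
    push_cast at x1 x2 y1 y2
    rw [pairLim, if_pos h, pamp, e]
    set x := coupLim 2 2 (L - m) (i + a + b - m) i (a + b - m)
    set y := coupLim 1 1 m (a + b) a b
    set p := amp V.v22 (L - m) (i + a + b - m) i with hp
    set q := amp V.v11 m (a + b) a with hq
    show |x * y * 1073741824 - (((p * q) / 1073741824 : ℤ) : ℝ)| ≤ 4 ∧ |x * y| ≤ 1 ∧
      |(((p * q) / 1073741824 : ℤ) : ℝ)| ≤ 1073741828
    set d := (p * q) / 1073741824
    have hd1 : (d : ℝ) * 1073741824 ≤ (p : ℝ) * q := by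
      have : d * 1073741824 ≤ p * q := Int.ediv_mul_le _ (by norm_num)
      exact_mod_cast this
    have hd2 : (p : ℝ) * q ≤ ((d : ℝ) + 1) * 1073741824 := by
      have : p * q ≤ (d + 1) * 1073741824 := (Int.lt_ediv_add_one_mul_self _ (by norm_num)).le
      exact_mod_cast this
    have hxy : |x * y| ≤ 1 := by
      rw [abs_mul]; exact mul_le_one₀ x2 (abs_nonneg _) y2
    have hpq := abs_le.1 (amp_pair x1 y1 x3 y3)
    have h4 : |x * y * 1073741824 - (d : ℝ)| ≤ 4 := by
      rw [abs_le]; constructor <;> linarith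
    refine ⟨h4, hxy, ?_⟩
    rw [abs_le] at h4 hxy ⊢
    constructor <;> linarith
  · have e : (Nat.ble m L && Nat.ble m (Nat.add a b) && Nat.ble L (Nat.add (Nat.add i a) b)) = false := by
      rw [← Bool.not_eq_true, Bool.and_eq_true, Bool.and_eq_true, Nat.ble_eq, Nat.ble_eq, Nat.ble_eq]
      exact fun hh => h ⟨hh.1.1, hh.1.2, hh.2⟩
    rw [pairLim, if_neg h, pamp, e]
    simp

/-- Amplitude of channel `2 j + 1` of a window pair. -/
noncomputable def pI (V : CovTab) (L U j : ℕ) (p : ℕ × ℕ) : ℤ :=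
  pamp V L (2 * j + 1) p.1 p.2 (U - p.1 - p.2)

/-- The integer coverage matrix. -/
noncomputable def KI (T : Tab) (V : CovTab) (L j l : ℕ) : ℤ :=
  ∑ U ∈ range (T.S + 2 * T.J), if L ≤ U then
    ∑ p ∈ win T U, ∑ q ∈ win T U, pI V L U j p * (gI T U p q * pI V L U l q) else 0

theorem pI_abs {T : Tab} {V : CovTab} (hf : facCheck V = true)
    (h22 : ampCheck V 2 2 V.v22 23 = true) (h11 : ampCheck V 1 1 V.v11 17 = true) (hS : T.S = 7)
    (hJ : T.J = 9) {L U j : ℕ} {p : ℕ × ℕ} (hp : p ∈ win T U) : |pI V L U j p| ≤ 2147483648 := by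
  have hw := mem_win hp
  have h := (pamp_near hf h22 h11 L j (i := p.1) (a := p.2) (b := U - p.1 - p.2)
    (by omega) hw.2.2.1 (by omega)).2.2
  have : |(pI V L U j p : ℝ)| ≤ ((2147483648 : ℤ) : ℝ) := h.trans (by norm_num)
  exact_mod_cast this

theorem sum_range_mul (A J : ℕ) (f : ℕ → ℕ) :
    ∑ x ∈ range (A * J), f x = ∑ i ∈ range A, ∑ a ∈ range J, f (i * J + a) := by
  induction A with
  | zero => simp
  | succ A ih => rw [add_mul, one_mul, Finset.sum_range_add, ih, Finset.sum_range_succ]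

theorem sum_range_mulZ (A J : ℕ) (f : ℕ → ℤ) :
    ∑ x ∈ range (A * J), f x = ∑ i ∈ range A, ∑ a ∈ range J, f (i * J + a) := by
  induction A with
  | zero => simp
  | succ A ih => rw [add_mul, one_mul, Finset.sum_range_add, ih, Finset.sum_range_succ]

theorem loPack_eq (V : CovTab) (L n U i a : ℕ) :
    loPack V L n U i a = pk 128 n fun j => (pI V L U j (i, a) + 4294967296).toNat := by
  simp only [loPack, sumTo_eq, pk]
  refine Finset.sum_congr rfl fun j _ => ?_
  show (pI V L U j (i, a) + 4294967296).toNat <<< (128 * j) = _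
  rw [Nat.shiftLeft_eq]

/-- Packed amplitudes of the pair with index `x = i J + a`. -/
noncomputable def wDig (T : Tab) (V : CovTab) (L n U x : ℕ) : ℕ :=
  cond (inWin T U (x / T.J) (x % T.J)) (loPack V L n U (x / T.J) (x % T.J)) 0

theorem winPack_eq (T : Tab) (V : CovTab) (L n U : ℕ) :
    winPack T V L n U = pk (128 * n) ((T.S + 1) * T.J) (wDig T V L n U) := by
  simp only [winPack, sumTo_eq]
  rw [pk, sum_range_mul]
  refine Finset.sum_congr rfl fun i _ => Finset.sum_congr rfl fun a ha => ?_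
  rw [mem_range] at ha
  have hJ : 0 < T.J := by omega
  rw [wDig, show (i * T.J + a) / T.J = i by
      rw [mul_comm, Nat.mul_add_div hJ, Nat.div_eq_of_lt ha, add_zero],
    show (i * T.J + a) % T.J = a by rw [mul_comm, Nat.mul_add_mod, Nat.mod_eq_of_lt ha]]
  cases inWin T U i a
  · simp
  · show loPack V L n U i a <<< (128 * n * (i * T.J + a)) = _
    rw [Nat.shiftLeft_eq]
    rfl

theorem cov2U_eq {T : Tab} {V : CovTab} (hf : facCheck V = true)
    (h22 : ampCheck V 2 2 V.v22 23 = true) (h11 : ampCheck V 1 1 V.v11 17 = true) (hS : T.S = 7)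
    (hJ : T.J = 9) (L n U : ℕ) :
    cov2U T V L n U = ∑ j ∈ range n, ∑ l ∈ range n,
      (∑ p ∈ win T U, ∑ q ∈ win T U, pI V L U j p * (gI T U p q * pI V L U l q)) *
        2 ^ (128 * (n * j + l)) := by
  have hlo : ∀ p ∈ win T U, ∀ j, (pI V L U j p + 4294967296).toNat < 2 ^ 128 := by
    intro p hp j
    have := abs_le.1 (pI_abs hf h22 h11 hS hJ (L := L) (j := j) hp)
    calc (pI V L U j p + 4294967296).toNat ≤ 6442450944 := by omega
      _ < 2 ^ 128 := by norm_num
  have hdig : ∀ x < (T.S + 1) * T.J, wDig T V L n U x < 2 ^ (128 * n) := by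
    intro x hx
    rw [wDig]
    cases h : inWin T U (x / T.J) (x % T.J)
    · exact Nat.two_pow_pos _
    · show loPack V L n U (x / T.J) (x % T.J) < _
      rw [loPack_eq]
      refine pk_lt fun j _ => hlo _ ?_ j
      simp only [win, mem_filter, mem_product, mem_range]
      exact ⟨⟨Nat.div_lt_of_lt_mul (by rw [mul_comm]; exact hx), Nat.mod_lt _ (by omega)⟩, h⟩
  simp only [cov2U, force_eq, sumZ_eq]
  rw [sum_win T U]
  simp only [sum_win T U]
  have hq : ∀ q ∈ win T U,
      Int.sub (Int.ofNat (fld (Nat.mul 128 n) (winPack T V L n U) (Nat.add (Nat.mul q.1 T.J) q.2)))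
        (Int.ofNat (sumTo n fun j => Nat.shiftLeft 4294967296 (Nat.mul 128 j))) =
      ∑ l ∈ range n, pI V L U l q * 2 ^ (128 * l) := by
    intro q hq
    have hw := mem_win hq
    have hqJ : q.2 < T.J := by omega
    have hidx : q.1 * T.J + q.2 < (T.S + 1) * T.J := by
      have := hw.1
      rw [hS] at this
      rw [hJ] at hqJ
      rw [hS, hJ]
      omega
    show ((fld (128 * n) (winPack T V L n U) (q.1 * T.J + q.2) : ℕ) : ℤ) -
      ((sumTo n fun j => 4294967296 <<< (128 * j) : ℕ) : ℤ) = _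
    rw [winPack_eq, fld_pk hdig hidx, wDig, show (q.1 * T.J + q.2) / T.J = q.1 by
        rw [mul_comm, Nat.mul_add_div (by omega), Nat.div_eq_of_lt hqJ, add_zero],
      show (q.1 * T.J + q.2) % T.J = q.2 by rw [mul_comm, Nat.mul_add_mod, Nat.mod_eq_of_lt hqJ],
      (inWin_iff T U q.1 q.2).2 ⟨hw.2.1, hw.2.2.1, hw.2.2.2⟩, cond_true, loPack_eq, pk_cast,
      sumTo_eq, Nat.cast_sum, ← Finset.sum_sub_distrib]
    refine Finset.sum_congr rfl fun l _ => ?_
    show _ = pI V L U l (q.1, q.2) * 2 ^ (128 * l)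
    rw [Nat.shiftLeft_eq, Nat.cast_mul, Nat.cast_pow, Nat.cast_ofNat,
      Int.toNat_of_nonneg (show 0 ≤ pI V L U l (q.1, q.2) + 4294967296 by
        have h2 : |pI V L U l (q.1, q.2)| ≤ 2147483648 := pI_abs hf h22 h11 hS hJ hq
        have := abs_le.1 h2
        omega)]
    push_cast
    ring
  show (∑ p ∈ win T U,
    (∑ j ∈ range n, pI V L U j p * Int.ofNat (1 <<< (128 * n * j))) *
      (∑ q ∈ win T U, gI T U p q *
        Int.sub (Int.ofNat (fld (Nat.mul 128 n) (winPack T V L n U) (Nat.add (Nat.mul q.1 T.J) q.2)))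
          (Int.ofNat (sumTo n fun j => Nat.shiftLeft 4294967296 (Nat.mul 128 j))))) = _
  have hinner : ∀ p : ℕ × ℕ, (∑ q ∈ win T U, gI T U p q *
      Int.sub (Int.ofNat (fld (Nat.mul 128 n) (winPack T V L n U) (Nat.add (Nat.mul q.1 T.J) q.2)))
        (Int.ofNat (sumTo n fun j => Nat.shiftLeft 4294967296 (Nat.mul 128 j)))) =
      ∑ q ∈ win T U, gI T U p q * ∑ l ∈ range n, pI V L U l q * 2 ^ (128 * l) :=
    fun p => Finset.sum_congr rfl fun q hq' => congrArg (gI T U p q * ·) (hq q hq')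
  rw [Finset.sum_congr rfl fun p (_ : p ∈ win T U) => congrArg
    ((∑ j ∈ range n, pI V L U j p * Int.ofNat (1 <<< (128 * n * j))) * ·) (hinner p)]
  simp only [Finset.sum_mul, Finset.mul_sum, Int.ofNat_eq_natCast, Nat.shiftLeft_eq, one_mul,
    Nat.cast_pow, Nat.cast_ofNat]
  rw [Finset.sum_comm]
  conv_lhs => enter [2, p]; rw [Finset.sum_comm]
  conv_lhs => enter [2, p, 2, l]; rw [Finset.sum_comm]
  rw [Finset.sum_comm]
  conv_lhs => enter [2, l]; rw [Finset.sum_comm]
  rw [Finset.sum_comm]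
  conv_lhs => enter [2, j, 2, l]; rw [Finset.sum_comm]
  refine Finset.sum_congr rfl fun j _ => Finset.sum_congr rfl fun l _ =>
    Finset.sum_congr rfl fun p _ => Finset.sum_congr rfl fun q _ => ?_
  rw [show 128 * (n * j + l) = 128 * n * j + 128 * l by ring, pow_add]
  ring

theorem gI_abs (T : Tab) (U : ℕ) (p q : ℕ × ℕ) : |gI T U p q| ≤ 4294967296 := by
  have := fld_lt 32 (fld (32 * T.K) (T.G U) (gIdx T p.1 p.2 (U - p.1 - p.2)))
    (gIdx T q.1 q.2 (U - q.1 - q.2))
  rw [gI, abs_le]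
  norm_num at this
  omega

theorem KI_abs {T : Tab} {V : CovTab} (hf : facCheck V = true)
    (h22 : ampCheck V 2 2 V.v22 23 = true) (h11 : ampCheck V 1 1 V.v11 17 = true) (hS : T.S = 7)
    (hJ : T.J = 9) (L j l : ℕ) :
    |KI T V L j l| < 170141183460469231731687303715884105728 := by
  have hcard : ∀ U, ((win T U).card : ℤ) ≤ 72 := fun U => by
    have : (win T U).card ≤ 72 := (Finset.card_filter_le _ _).trans (by simp [hS, hJ])
    exact_mod_cast this
  have h : |KI T V L j l| ≤ ∑ _U ∈ range (T.S + 2 * T.J),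
      (72 * (72 * (2147483648 * (4294967296 * 2147483648))) : ℤ) := by
    refine (Finset.abs_sum_le_sum_abs _ _).trans (Finset.sum_le_sum fun U _ => ?_)
    split_ifs
    · refine (Finset.abs_sum_le_sum_abs _ _).trans ?_
      refine (Finset.sum_le_card_nsmul _ _ (72 * (2147483648 * (4294967296 * 2147483648))) ?_).trans ?_
      · intro p hp
        refine (Finset.abs_sum_le_sum_abs _ _).trans ?_
        refine (Finset.sum_le_card_nsmul _ _ (2147483648 * (4294967296 * 2147483648)) ?_).trans ?_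
        · intro q hq
          rw [abs_mul, abs_mul]
          exact mul_le_mul (pI_abs hf h22 h11 hS hJ hp)
            (mul_le_mul (gI_abs T U p q) (pI_abs hf h22 h11 hS hJ hq) (abs_nonneg _) (by norm_num))
            (by positivity) (by norm_num)
        · rw [nsmul_eq_mul]
          exact mul_le_mul_of_nonneg_right (hcard U) (by norm_num)
      · rw [nsmul_eq_mul]
        exact mul_le_mul_of_nonneg_right (hcard U) (by norm_num)
    · norm_num
  refine lt_of_le_of_lt h ?_
  rw [Finset.sum_const, card_range, nsmul_eq_mul, hS, hJ]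
  norm_num

theorem cov2Sum_eq {T : Tab} {V : CovTab} (hf : facCheck V = true)
    (h22 : ampCheck V 2 2 V.v22 23 = true) (h11 : ampCheck V 1 1 V.v11 17 = true) (hS : T.S = 7)
    (hJ : T.J = 9) (L n : ℕ) :
    (∑ U ∈ range (T.S + 2 * T.J), if L ≤ U then cov2U T V L n U else 0) =
      ∑ x ∈ range (n * n), KI T V L (x / n) (x % n) * 2 ^ (128 * x) := by
  rw [sum_range_mulZ]
  simp only [cov2U_eq hf h22 h11 hS hJ, KI, Finset.sum_mul, ite_mul, zero_mul]
  have he : ∀ i, i ∈ range n → ∀ a, a ∈ range n →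
      (∑ U ∈ range (T.S + 2 * T.J), if L ≤ U then ∑ p ∈ win T U, ∑ q ∈ win T U,
        pI V L U ((i * n + a) / n) p * (gI T U p q * pI V L U ((i * n + a) % n) q) *
          2 ^ (128 * (i * n + a)) else 0) =
      ∑ U ∈ range (T.S + 2 * T.J), if L ≤ U then ∑ p ∈ win T U, ∑ q ∈ win T U,
        pI V L U i p * (gI T U p q * pI V L U a q) * 2 ^ (128 * (n * i + a)) else 0 := by
    intro i hi a ha
    rw [mem_range] at hi ha
    rw [show (i * n + a) / n = i by
        rw [mul_comm, Nat.mul_add_div (by omega), Nat.div_eq_of_lt ha, add_zero],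
      show (i * n + a) % n = a by rw [mul_comm, Nat.mul_add_mod, Nat.mod_eq_of_lt ha],
      mul_comm i n]
  rw [Finset.sum_congr rfl fun i hi => Finset.sum_congr rfl fun a ha => he i hi a ha]
  conv_rhs => enter [2, i]; rw [Finset.sum_comm]
  conv_rhs => rw [Finset.sum_comm]
  refine Finset.sum_congr rfl fun U _ => ?_
  by_cases hU : L ≤ U <;> simp [hU]

theorem pk_signed (w N : ℕ) (K : ℕ → ℤ) (B : ℕ) (h : ∀ x, 0 ≤ K x + B) :
    (∑ x ∈ range N, K x * 2 ^ (w * x)) + ((∑ x ∈ range N, B * 2 ^ (w * x) : ℕ) : ℤ) =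
      ((pk w N fun x => (K x + B).toNat : ℕ) : ℤ) := by
  rw [pk_cast, Nat.cast_sum, ← Finset.sum_add_distrib]
  refine Finset.sum_congr rfl fun x _ => ?_
  rw [Int.toNat_of_nonneg (h x), Nat.cast_mul, Nat.cast_pow, Nat.cast_ofNat, add_mul]

theorem shift_sum (w N B : ℕ) :
    sumTo N (fun q => Nat.shiftLeft B (Nat.mul w q)) = ∑ x ∈ range N, B * 2 ^ (w * x) := by
  rw [sumTo_eq]
  refine Finset.sum_congr rfl fun x _ => ?_
  show B <<< (w * x) = _
  rw [Nat.shiftLeft_eq]

theorem cov2Pack_eq {T : Tab} {V : CovTab} (hf : facCheck V = true)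
    (h22 : ampCheck V 2 2 V.v22 23 = true) (h11 : ampCheck V 1 1 V.v11 17 = true) (hS : T.S = 7)
    (hJ : T.J = 9) (L n : ℕ) :
    cov2Pack T V L n = pk 128 (n * n) fun x =>
      (KI T V L (x / n) (x % n) + ((170141183460469231731687303715884105728 : ℕ) : ℤ)).toNat := by
  have hB : ∀ x, 0 ≤ KI T V L (x / n) (x % n) +
      ((170141183460469231731687303715884105728 : ℕ) : ℤ) := fun x => by
    have := abs_lt.1 (KI_abs hf h22 h11 hS hJ L (x / n) (x % n))
    rw [Nat.cast_ofNat]
    linarith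
  rw [cov2Pack, shift_sum, sumZ_eq]
  simp only [cond_ble]
  show ((∑ U ∈ range (T.S + 2 * T.J), if L ≤ U then cov2U T V L n U else 0) +
    ((∑ x ∈ range (n * n), _ : ℕ) : ℤ)).toNat = _
  rw [cov2Sum_eq hf h22 h11 hS hJ, pk_signed 128 (n * n) _ _ hB, Int.toNat_natCast]

theorem fld_signed {w N : ℕ} {P : ℕ} {K : ℕ → ℤ} {B : ℕ} (hP : P = pk w N fun x => (K x + B).toNat)
    (h0 : ∀ x, 0 ≤ K x + B) (h1 : ∀ x, K x + B < 2 ^ w) {p : ℕ} (hp : p < N) :
    (fld w P p : ℤ) - B = K p := by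
  rw [hP, fld_pk (fun x _ => by
    rw [← Nat.cast_lt (α := ℤ), Int.toNat_of_nonneg (h0 x), Nat.cast_pow, Nat.cast_ofNat]
    exact h1 x) hp, Int.toNat_of_nonneg (h0 p), add_sub_cancel_right]

theorem cond_zero_zero (j l : ℕ) (c : ℤ) :
    cond (Nat.beq j 0 && Nat.beq l 0) c 0 = if j = 0 ∧ l = 0 then c else 0 := by
  by_cases h : j = 0 ∧ l = 0
  · rw [if_pos h, h.1, h.2]; rfl
  · rw [if_neg h, show (Nat.beq j 0 && Nat.beq l 0) = false by
      rw [← Bool.not_eq_true, Bool.and_eq_true, Nat.beq_eq, Nat.beq_eq]; exact h]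
    rfl

theorem cond_beq (j l : ℕ) (c : ℤ) : cond (Nat.beq j l) c 0 = if j = l then c else 0 := by
  by_cases h : j = l
  · rw [if_pos h, show Nat.beq j l = true by rw [Nat.beq_eq]; exact h]; rfl
  · rw [if_neg h, show Nat.beq j l = false by rw [← Bool.not_eq_true, Nat.beq_eq]; exact h]; rfl

theorem cov2Ent_eq {T : Tab} {V : CovTab} (hf : facCheck V = true)
    (h22 : ampCheck V 2 2 V.v22 23 = true) (h11 : ampCheck V 1 1 V.v11 17 = true) (hS : T.S = 7)
    (hJ : T.J = 9) (L n E : ℕ) {j l : ℕ} (hj : j < n) (hl : l < n) :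
    cov2Ent n (cov2Pack T V L n) E j l =
      (if j = 0 ∧ l = 0 then 19342813113834066795298816 else 0) - KI T V L j l -
        if j = l then Int.ofNat (Nat.mul (Nat.mul n 9663676416) E) else 0 := by
  have h0 : ∀ x, 0 ≤ KI T V L (x / n) (x % n) +
      ((170141183460469231731687303715884105728 : ℕ) : ℤ) := fun x => by
    have := abs_lt.1 (KI_abs hf h22 h11 hS hJ L (x / n) (x % n))
    rw [Nat.cast_ofNat]
    linarith
  have h1 : ∀ x, KI T V L (x / n) (x % n) +
      ((170141183460469231731687303715884105728 : ℕ) : ℤ) < 2 ^ 128 := fun x => by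
    have := abs_lt.1 (KI_abs hf h22 h11 hS hJ L (x / n) (x % n))
    rw [Nat.cast_ofNat]
    have e : (2 : ℤ) ^ 128 =
        170141183460469231731687303715884105728 + 170141183460469231731687303715884105728 := by
      norm_num
    linarith
  have hidx : n * j + l < n * n := by
    calc n * j + l < n * j + n := by omega
      _ = n * (j + 1) := by ring
      _ ≤ n * n := Nat.mul_le_mul_left _ hj
  have hf1 := fld_signed (cov2Pack_eq hf h22 h11 hS hJ L n) h0 h1 hidx
  rw [show (n * j + l) / n = j by rw [Nat.mul_add_div (by omega), Nat.div_eq_of_lt hl, add_zero],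
    show (n * j + l) % n = l by rw [Nat.mul_add_mod, Nat.mod_eq_of_lt hl], Nat.cast_ofNat] at hf1
  rw [cov2Ent, cond_zero_zero, cond_beq, ← hf1]
  rfl

theorem cov2_near {T : Tab} {V : CovTab} (hf : facCheck V = true)
    (h22 : ampCheck V 2 2 V.v22 23 = true) (h11 : ampCheck V 1 1 V.v11 17 = true) (hS : T.S = 7)
    (hJ : T.J = 9) (L j l : ℕ) :
    |cov2Lim T.S T.J (gR T) L (2 * j + 1) (2 * l + 1) * unit84 - (KI T V L j l : ℝ)| ≤
      9663676416 * (cov2E T L : ℝ) := by
  have e3 : (cov2E T L : ℝ) = ∑ U ∈ range (T.S + 2 * T.J), if L ≤ U then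
      ∑ p ∈ win T U, ∑ q ∈ win T U, |(gI T U p q : ℝ)| else 0 := by
    simp only [cov2E, sumTo_eq, cond_ble, force_eq, sum_win]
    show ((∑ U ∈ range (T.S + 2 * T.J), if L ≤ U then ∑ p ∈ win T U, ∑ q ∈ win T U,
      (gI T U p q).natAbs else 0 : ℕ) : ℝ) = _
    simp only [Nat.cast_sum, Nat.cast_ite, Nat.cast_zero, Nat.cast_natAbs, Int.cast_abs]
  rw [e3, cov2Lim_levels, KI, Int.cast_sum, Finset.sum_mul, ← Finset.sum_sub_distrib, Finset.mul_sum]
  refine (Finset.abs_sum_le_sum_abs _ _).trans (Finset.sum_le_sum fun U _ => ?_)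
  split_ifs with hL
  swap
  · simp
  rw [Int.cast_sum, Finset.sum_mul, ← Finset.sum_sub_distrib, Finset.mul_sum]
  refine (Finset.abs_sum_le_sum_abs _ _).trans (Finset.sum_le_sum fun p hp => ?_)
  rw [Int.cast_sum, Finset.sum_mul, ← Finset.sum_sub_distrib, Finset.mul_sum]
  refine (Finset.abs_sum_le_sum_abs _ _).trans (Finset.sum_le_sum fun q hq => ?_)
  have hwp := mem_win hp
  have hwq := mem_win hq
  obtain ⟨a1, a2, a3⟩ := pamp_near hf h22 h11 L j (i := p.1) (a := p.2) (b := U - p.1 - p.2)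
    (by omega) hwp.2.2.1 (by omega)
  obtain ⟨b1, b2, b3⟩ := pamp_near hf h22 h11 L l (i := q.1) (a := q.2) (b := U - q.1 - q.2)
    (by omega) hwq.2.2.1 (by omega)
  rw [Int.cast_mul, Int.cast_mul, pI, pI]
  set x := pairLim L (2 * j + 1) p.1 p.2 (U - p.1 - p.2)
  set y := pairLim L (2 * l + 1) q.1 q.2 (U - q.1 - q.2)
  set P := (pamp V L (2 * j + 1) p.1 p.2 (U - p.1 - p.2) : ℝ)
  set Q := (pamp V L (2 * l + 1) q.1 q.2 (U - q.1 - q.2) : ℝ)
  set g := (gI T U p q : ℝ)
  rw [show g / scale * (x * y) * unit84 - P * (g * Q) =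
      g * ((x * 1073741824 - P) * (y * 1073741824) + P * (y * 1073741824 - Q)) by
    rw [scale, unit84]; ring, abs_mul, mul_comm (9663676416 : ℝ)]
  refine mul_le_mul_of_nonneg_left ?_ (abs_nonneg _)
  have hy : |y * 1073741824| ≤ 1073741824 := by
    rw [abs_mul, abs_of_nonneg (show (0 : ℝ) ≤ 1073741824 by norm_num)]
    exact mul_le_of_le_one_left (by norm_num) b2
  refine (abs_add_le _ _).trans ?_
  rw [abs_mul (x * 1073741824 - P), abs_mul P]
  have h1 := mul_le_mul a1 hy (abs_nonneg _) (by norm_num)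
  have h2 := mul_le_mul a3 b1 (abs_nonneg _) (by norm_num)
  linarith

theorem sum_odd (L : ℕ) (f : ℕ → ℝ) :
    ∑ m ∈ (range (L + 1)).filter Odd, f m = ∑ j ∈ range ((L + 1) / 2), f (2 * j + 1) := by
  symm
  refine Finset.sum_nbij' (fun j => 2 * j + 1) (fun m => m / 2) ?_ ?_ ?_ ?_ ?_
  · intro j hj; simp at hj ⊢; omega
  · intro m hm; simp [Nat.odd_iff] at hm ⊢; omega
  · intro j hj; show (2 * j + 1) / 2 = j; omega
  · intro m hm; simp [Nat.odd_iff] at hm ⊢; omega
  · intro j _; rfl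

/-- A checked block gives the two-fermion condition. -/
theorem cov2_of_check {T : Tab} {V : CovTab} (hf : facCheck V = true)
    (h22 : ampCheck V 2 2 V.v22 23 = true) (h11 : ampCheck V 1 1 V.v11 17 = true) (hS : T.S = 7)
    (hJ : T.J = 9) {L : ℕ} (h : cov2Check T V L = true) (v : ℕ → ℝ) :
    ∑ m ∈ (range (L + 1)).filter Odd, ∑ m' ∈ (range (L + 1)).filter Odd,
      cov2Lim T.S T.J (gR T) L m m' * v m * v m' ≤ v 1 ^ 2 := by
  simp only [cov2Check, force_eq] at h
  set n := (L + 1) / 2 with hn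
  change allTo n _ = true at h
  set E := cov2E T L
  set P := cov2Pack T V L n
  set F := V.B L
  set x : ℕ → ℝ := fun j => v (2 * j + 1)
  have hdom : ∀ j < n,
      (∑ l ∈ range n, |cov2Ent n P E j l - ∑ r ∈ range n, cov2B F n r j * cov2B F n r l|) +
        (∑ l ∈ range n, |cov2Ent n P E l j - ∑ r ∈ range n, cov2B F n r l * cov2B F n r j|) ≤
      4 * (cov2Ent n P E j j - ∑ r ∈ range n, cov2B F n r j * cov2B F n r j) := by
    intro j hj
    have h' := allTo_eq h j hj
    rw [decide_eq_true_iff] at h'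
    simp only [sumTo_eq, sumZ_eq, Nat.add_eq, Int.ofNat_eq_natCast, Nat.cast_sum, Nat.cast_add,
      Int.natCast_natAbs, Finset.sum_add_distrib] at h'
    exact h'
  have hq := quad_nonneg _ hdom x
  have hB : 0 ≤ ∑ j ∈ range n, ∑ l ∈ range n,
      ((∑ r ∈ range n, cov2B F n r j * cov2B F n r l : ℤ) : ℝ) * x j * x l := by
    have e : ∑ j ∈ range n, ∑ l ∈ range n,
        ((∑ r ∈ range n, cov2B F n r j * cov2B F n r l : ℤ) : ℝ) * x j * x l =
        ∑ r ∈ range n, (∑ j ∈ range n, (cov2B F n r j : ℝ) * x j) ^ 2 := by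
      simp only [Int.cast_sum, Int.cast_mul, Finset.sum_mul]
      conv_lhs => enter [2, j]; rw [Finset.sum_comm]
      rw [Finset.sum_comm]
      refine Finset.sum_congr rfl fun r _ => ?_
      rw [sq, Finset.sum_mul_sum]
      exact Finset.sum_congr rfl fun j _ => Finset.sum_congr rfl fun l _ => by ring
    rw [e]
    exact Finset.sum_nonneg fun r _ => sq_nonneg _
  have hsplit : ∑ j ∈ range n, ∑ l ∈ range n,
      ((cov2Ent n P E j l - ∑ r ∈ range n, cov2B F n r j * cov2B F n r l : ℤ) : ℝ) * x j * x l =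
      (∑ j ∈ range n, ∑ l ∈ range n, (cov2Ent n P E j l : ℝ) * x j * x l) -
        ∑ j ∈ range n, ∑ l ∈ range n,
          ((∑ r ∈ range n, cov2B F n r j * cov2B F n r l : ℤ) : ℝ) * x j * x l := by
    simp only [Int.cast_sub, sub_mul, Finset.sum_sub_distrib]
  set c : ℝ := 9663676416 * (E : ℝ) with hc
  have hc0 : 0 ≤ c := by positivity
  have hent : ∑ j ∈ range n, ∑ l ∈ range n, (cov2Ent n P E j l : ℝ) * x j * x l =
      (∑ j ∈ range n, ∑ l ∈ range n, (if j = 0 ∧ l = 0 then unit84 else 0) * x j * x l) -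
        (∑ j ∈ range n, ∑ l ∈ range n, (KI T V L j l : ℝ) * x j * x l) -
        (n : ℝ) * c * ∑ j ∈ range n, x j ^ 2 := by
    have hd : ∑ j ∈ range n, ∑ l ∈ range n,
        (if j = l then ((n * 9663676416 * E : ℕ) : ℝ) else 0) * x j * x l =
        (n : ℝ) * c * ∑ j ∈ range n, x j ^ 2 := by
      rw [Finset.mul_sum]
      refine Finset.sum_congr rfl fun j hj => ?_
      simp only [ite_mul, zero_mul]
      rw [Finset.sum_ite_eq, if_pos hj]
      push_cast
      ring
    rw [← hd, ← Finset.sum_sub_distrib, ← Finset.sum_sub_distrib]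
    refine Finset.sum_congr rfl fun j hj => ?_
    rw [← Finset.sum_sub_distrib, ← Finset.sum_sub_distrib]
    refine Finset.sum_congr rfl fun l hl => ?_
    rw [cov2Ent_eq hf h22 h11 hS hJ L n E (mem_range.1 hj) (mem_range.1 hl), unit84]
    simp only [Int.ofNat_eq_natCast, Nat.mul_eq]
    split_ifs <;> push_cast <;> ring
  have htgt : ∑ j ∈ range n, ∑ l ∈ range n, (if j = 0 ∧ l = 0 then unit84 else 0) * x j * x l ≤
      unit84 * v 1 ^ 2 := by
    have hU : (0 : ℝ) ≤ unit84 := by norm_num [unit84]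
    rcases Nat.eq_zero_or_pos n with h0 | h0
    · rw [h0]; simp; positivity
    · rw [Finset.sum_eq_single 0, Finset.sum_eq_single 0]
      · rw [if_pos ⟨rfl, rfl⟩]
        show unit84 * v 1 * v 1 ≤ _
        exact le_of_eq (by ring)
      · intro l _ hl; simp [hl]
      · intro hh; exact absurd (mem_range.2 h0) hh
      · intro j _ hj; simp [hj]
      · intro hh; exact absurd (mem_range.2 h0) hh
  have herr : ∑ j ∈ range n, ∑ l ∈ range n,
      (cov2Lim T.S T.J (gR T) L (2 * j + 1) (2 * l + 1) * unit84 - (KI T V L j l : ℝ)) * x j * x l ≤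
      (n : ℝ) * c * ∑ j ∈ range n, x j ^ 2 := by
    calc _ ≤ ∑ j ∈ range n, ∑ l ∈ range n, c * (|x j| * |x l|) := by
          refine Finset.sum_le_sum fun j _ => Finset.sum_le_sum fun l _ => ?_
          refine (le_abs_self _).trans ?_
          rw [mul_assoc, abs_mul, abs_mul]
          exact mul_le_mul_of_nonneg_right (cov2_near hf h22 h11 hS hJ L j l) (by positivity)
      _ = c * (∑ j ∈ range n, |x j|) ^ 2 := by
          rw [sq, Finset.sum_mul_sum, Finset.mul_sum]
          exact Finset.sum_congr rfl fun j _ => by rw [Finset.mul_sum]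
      _ ≤ c * ((n : ℝ) * ∑ j ∈ range n, |x j| ^ 2) := by
          refine mul_le_mul_of_nonneg_left ?_ hc0
          simpa using sq_sum_le_card_mul_sum_sq (s := range n) (f := fun j => |x j|)
      _ = _ := by simp only [sq_abs]; ring
  have hgoal : ∑ m ∈ (range (L + 1)).filter Odd, ∑ m' ∈ (range (L + 1)).filter Odd,
      cov2Lim T.S T.J (gR T) L m m' * v m * v m' =
      ∑ j ∈ range n, ∑ l ∈ range n, cov2Lim T.S T.J (gR T) L (2 * j + 1) (2 * l + 1) * x j * x l := by
    rw [sum_odd]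
    exact Finset.sum_congr rfl fun j _ => sum_odd L _
  have hsum : (∑ j ∈ range n, ∑ l ∈ range n,
      (cov2Lim T.S T.J (gR T) L (2 * j + 1) (2 * l + 1) * unit84 - (KI T V L j l : ℝ)) * x j * x l) =
      unit84 * (∑ j ∈ range n, ∑ l ∈ range n,
        cov2Lim T.S T.J (gR T) L (2 * j + 1) (2 * l + 1) * x j * x l) -
      ∑ j ∈ range n, ∑ l ∈ range n, (KI T V L j l : ℝ) * x j * x l := by
    rw [Finset.mul_sum, ← Finset.sum_sub_distrib]
    refine Finset.sum_congr rfl fun j _ => ?_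
    rw [Finset.mul_sum, ← Finset.sum_sub_distrib]
    exact Finset.sum_congr rfl fun l _ => by ring
  rw [hgoal]
  rw [hsplit, hent] at hq
  rw [hsum] at herr
  refine le_of_mul_le_mul_left ?_ (show (0 : ℝ) < unit84 by norm_num [unit84])
  linarith

end Vale.Agent.P359.Fast
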