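import Vale.Agent.P359.FastCert.Data.Pos
import Vale.Agent.P359.FastCert.Data.CovChkA
import Vale.Agent.P359.FastCert.Data.CovChkB
import Vale.Agent.P359.FastCert.Cov1Sound
import Vale.Agent.P359.FastCert.Cov2Sound

/-!
The window certificate of the `ν = 1/3` gap theorem.
-/

namespace Vale.Agent.P359

/-- A window certificate exists. -/
theorem exists_winCert : ∃ S J C w G, S + J ≤ 30 ∧ WinCert S J C w G := by
  have hS : Fast.tab.S = 7 := rfl
  have hJ : Fast.tab.J = 9 := rfl
  refine ⟨Fast.tab.S, Fast.tab.J, Fast.cR Fast.tab, Fast.wR Fast.tab, Fast.gR Fast.tab,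
    (by rw [hS, hJ]; norm_num), ⟨Fast.tab_pos, ?_, fun L hL v => ?_⟩⟩
  · exact Fast.cov1_of_check Fast.cov_fac (N := 16) (by norm_num) (by rw [hS, hJ]) Fast.cov_amp21
      Fast.tab_cov1
  · exact Fast.cov2_of_check Fast.cov_fac Fast.cov_amp22 Fast.cov_amp11 hS hJ
      (Fast.allTo_eq Fast.tab_cov2 L (by rw [hS, hJ] at hL; omega)) v

end Vale.Agent.P359
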