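import Vale.Agent.P359.FastCert.Basics

/-!
The entries of a state row.
-/

namespace Vale.Agent.P359.Fast

open Finset

/-- One-fermion entries of state `(i, m)`. -/
noncomputable def hopTerms (T : Tab) (i m : ℕ) : List (ℕ × ℕ) :=
  (List.range T.J).flatMap fun a => if bit m a = true then
    (List.range T.J).flatMap fun a' =>
      if (!bit (Nat.sub m (Nat.shiftLeft 1 a)) a' && Nat.ble a' (Nat.add i a) &&
          Nat.ble (Nat.add i a) (Nat.add T.S a')) = true then
        [(signed (Nat.beq (Nat.mod (Nat.add (parB T m a) (parB T (Nat.sub m (Nat.shiftLeft 1 a)) a')) 2) 0)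
            (fld 32 T.W (Nat.add (Nat.mul (Nat.add (Nat.mul (Nat.add i a) (Nat.add T.S 1)) i)
              (Nat.add T.S 1)) (Nat.sub (Nat.add i a) a'))),
          Nat.add (Nat.shiftLeft (Nat.sub (Nat.add i a) a') T.J)
            (Nat.add (Nat.sub m (Nat.shiftLeft 1 a)) (Nat.shiftLeft 1 a')))] else []
    else []

/-- Two-fermion entries of state `(i, m)`. -/
noncomputable def pairTerms (T : Tab) (i m : ℕ) : List (ℕ × ℕ) :=
  (List.range T.J).flatMap fun b1 => if bit m b1 = true then
    (List.range b1).flatMap fun a => if bit (Nat.sub m (Nat.shiftLeft 1 b1)) a = true then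
      (List.range T.J).flatMap fun b2 =>
        if (!bit (Nat.sub (Nat.sub m (Nat.shiftLeft 1 b1)) (Nat.shiftLeft 1 a)) b2 &&
            Nat.ble b2 (Nat.add (Nat.add i a) b1)) = true then
          (List.range b2).flatMap fun a2 =>
            if (!bit (Nat.sub (Nat.sub m (Nat.shiftLeft 1 b1)) (Nat.shiftLeft 1 a)) a2 &&
                Nat.ble (Nat.add a2 b2) (Nat.add (Nat.add i a) b1) &&
                Nat.ble (Nat.add (Nat.add i a) b1) (Nat.add T.S (Nat.add a2 b2))) = true then
              [(signed (Nat.beq (Nat.mod (Nat.add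
                  (Nat.add (parB T m a) (parB T (Nat.sub m (Nat.shiftLeft 1 b1)) b1))
                  (Nat.add (parB T (Nat.add (Nat.sub (Nat.sub m (Nat.shiftLeft 1 b1))
                      (Nat.shiftLeft 1 a)) (Nat.shiftLeft 1 b2)) a2)
                    (parB T (Nat.sub (Nat.sub m (Nat.shiftLeft 1 b1)) (Nat.shiftLeft 1 a)) b2))) 2) 0)
                  (fld 32 (fld (Nat.mul 32 T.K) (T.G (Nat.add (Nat.add i a) b1)) (gIdx T i a b1))
                    (gIdx T (Nat.sub (Nat.add (Nat.add i a) b1) (Nat.add a2 b2)) a2 b2)),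
                Nat.add (Nat.shiftLeft (Nat.sub (Nat.add (Nat.add i a) b1) (Nat.add a2 b2)) T.J)
                  (Nat.add (Nat.add (Nat.sub (Nat.sub m (Nat.shiftLeft 1 b1)) (Nat.shiftLeft 1 a))
                    (Nat.shiftLeft 1 b2)) (Nat.shiftLeft 1 a2)))] else []
        else []
      else []
    else []

/-- All entries of state `(i, m)`. -/
noncomputable def rowTerms (T : Tab) (i m : ℕ) : List (ℕ × ℕ) :=
  (fld 32 T.C i, Nat.add (Nat.shiftLeft i T.J) m) :: (hopTerms T i m ++ pairTerms T i m)

/-- Sum of `f` over a list of entries. -/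
def tsum' {M : Type} [AddCommMonoid M] (l : List (ℕ × ℕ)) (f : ℕ × ℕ → M) : M := (l.map f).sum

theorem tsum'_flatMap {M : Type} [AddCommMonoid M] (n : ℕ) (g : ℕ → List (ℕ × ℕ)) (f : ℕ × ℕ → M) :
    tsum' ((List.range n).flatMap g) f = ∑ i ∈ range n, tsum' (g i) f := by
  induction n with
  | zero => simp [tsum']
  | succ n ih =>
    rw [List.range_succ, List.flatMap_append, Finset.sum_range_succ, ← ih]
    simp [tsum', List.sum_append]

theorem tsum'_ite {M : Type} [AddCommMonoid M] (b : Bool) (l : List (ℕ × ℕ)) (f : ℕ × ℕ → M) :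
    tsum' (if b = true then l else []) f = cond b (tsum' l f) 0 := by
  cases b <;> simp [tsum']

theorem tsum'_one {M : Type} [AddCommMonoid M] (x : ℕ × ℕ) (f : ℕ × ℕ → M) :
    tsum' [x] f = f x := by simp [tsum']

theorem rowRaw_eq (T : Tab) (b : Blk) (i m : ℕ) :
    rowRaw T b i m = tsum' (rowTerms T i m) fun e => addEntry T b e.1 e.2 := by
  have hcons : ∀ (x : ℕ × ℕ) (l : List (ℕ × ℕ)) (f : ℕ × ℕ → ℕ),
      tsum' (x :: l) f = f x + tsum' l f := fun x l f => by simp [tsum']
  have happ : ∀ (l l' : List (ℕ × ℕ)) (f : ℕ × ℕ → ℕ),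
      tsum' (l ++ l') f = tsum' l f + tsum' l' f := fun l l' f => by simp [tsum', List.sum_append]
  rw [rowTerms, hcons, happ]
  simp only [rowRaw, hopTerms, pairTerms, tsum'_flatMap, tsum'_ite, tsum'_one, sumTo_eq, force_eq]
  rfl

theorem signed_le {neg : Bool} {cn : ℕ} (h : cn ≤ 4294967296) : signed neg cn ≤ 4294967296 := by
  cases neg
  · exact h
  · exact Nat.sub_le _ _

theorem rowTerms_fst_le (T : Tab) (i m : ℕ) : ∀ e ∈ rowTerms T i m, e.1 ≤ 4294967296 := by
  have hf : ∀ P p, fld 32 P p ≤ 4294967296 := fun P p => (fld_lt 32 P p).le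
  intro e he
  simp only [rowTerms, List.mem_cons, List.mem_append] at he
  rcases he with rfl | he | he
  · exact hf _ _
  · simp only [hopTerms, List.mem_flatMap] at he
    obtain ⟨a, _, he⟩ := he
    split_ifs at he with h1
    · simp only [List.mem_flatMap] at he
      obtain ⟨a', _, he⟩ := he
      split_ifs at he with h2
      · rw [List.mem_singleton] at he; subst he; exact signed_le (hf _ _)
      · simp at he
    · simp at he
  · simp only [pairTerms, List.mem_flatMap] at he
    obtain ⟨b1, _, he⟩ := he
    split_ifs at he with h1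
    · simp only [List.mem_flatMap] at he
      obtain ⟨a, _, he⟩ := he
      split_ifs at he with h2
      · simp only [List.mem_flatMap] at he
        obtain ⟨b2, _, he⟩ := he
        split_ifs at he with h3
        · simp only [List.mem_flatMap] at he
          obtain ⟨a2, _, he⟩ := he
          split_ifs at he with h4
          · rw [List.mem_singleton] at he; subst he; exact signed_le (hf _ _)
          · simp at he
        · simp at he
      · simp at he
    · simp at he

theorem length_flatMap_le {n c : ℕ} {g : ℕ → List (ℕ × ℕ)} (h : ∀ i < n, (g i).length ≤ c) :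
    ((List.range n).flatMap g).length ≤ n * c := by
  induction n with
  | zero => simp
  | succ n ih =>
    rw [List.range_succ, List.flatMap_append, List.length_append, Nat.add_mul, one_mul]
    have := ih fun i hi => h i (by omega)
    have := h n (by omega)
    simp only [List.flatMap_cons, List.flatMap_nil, List.append_nil]
    omega

theorem length_ite_le (b : Prop) [Decidable b] {l : List (ℕ × ℕ)} {c : ℕ} (h : l.length ≤ c) :
    (if b then l else []).length ≤ c := by
  split_ifs <;> simp [h]

theorem rowTerms_length (T : Tab) (hJ : T.J ≤ 10) (i m : ℕ) :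
    (rowTerms T i m).length ≤ 16384 := by
  have h1 : (hopTerms T i m).length ≤ T.J * (T.J * 1) :=
    length_flatMap_le fun a _ => length_ite_le _ (length_flatMap_le fun a' _ =>
      length_ite_le _ (by simp))
  have h2 : (pairTerms T i m).length ≤ T.J * (T.J * (T.J * (T.J * 1))) := by
    refine length_flatMap_le fun b1 hb1 => length_ite_le _ ?_
    refine le_trans (length_flatMap_le fun a _ => length_ite_le _ (length_flatMap_le fun b2 hb2 =>
      length_ite_le _ (le_trans (length_flatMap_le fun a2 _ => length_ite_le _ (by simp))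
        (Nat.mul_le_mul_right 1 hb2.le)))) ?_
    exact Nat.mul_le_mul_right _ hb1.le
  simp only [rowTerms, List.length_cons, List.length_append]
  have h3 : T.J * (T.J * 1) ≤ 10 * (10 * 1) := by gcongr
  have h4 : T.J * (T.J * (T.J * (T.J * 1))) ≤ 10 * (10 * (10 * (10 * 1))) := by gcongr
  omega

end Vale.Agent.P359.Fast
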